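import Mathlib
import Crest.Agent.Lib.Mertens

-- ▼ part Lib/HallTen
section

/-!
# The Hall-Tenenbaum upper bound for sums of nonnegative multiplicative functions

* `hall_tenenbaum` : for `f ≥ 0` with `f (m n) ≤ f m f n` (`m, n` coprime),
  `∑_{p ≤ y} f p log p ≤ A y` and `∑_{p,k ≥ 2} f (p^k) k log p / p^k ≤ B`:
  `(∑_{n ≤ N} f n) log N ≤ (A + B + 1) N ∑_{n ≤ N} f n / n`.
* `wt z n = ∏ z_p ^ v_p(n)`, with `sum_wt_div_le`, `sum_wt_le`.
-/

set_option autoImplicit false

namespace Crest.Agent.Lib.HallTen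

open Finset Nat

/-- Nonnegative, submultiplicative on coprime arguments. -/
structure SubMult (f : ℕ → ℝ) : Prop where
  nonneg : ∀ n, 0 ≤ f n
  mul_le : ∀ m n, Nat.Coprime m n → f (m * n) ≤ f m * f n

lemma log_eq_sum_primesLE {N n : ℕ} (hn : n ∈ Icc 1 N) :
    Real.log n = ∑ p ∈ Nat.primesLE N, (n.factorization p : ℝ) * Real.log p := by
  rw [Finset.mem_Icc] at hn
  rw [Real.log_nat_eq_sum_factorization, Finsupp.sum_of_support_subset]
  · intro p hp
    rw [Nat.support_factorization, Nat.mem_primeFactors] at hp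
    rw [Nat.mem_primesLE]
    exact ⟨(Nat.le_of_dvd (by omega) hp.2.1).trans hn.2, hp.1⟩
  · simp

lemma factorization_le_of_mem {N n p : ℕ} (hn : n ∈ Icc 1 N) : n.factorization p ≤ N := by
  rw [Finset.mem_Icc] at hn
  have : n.factorization p < n := Nat.factorization_lt p (by omega)
  omega

/-- Sum over `n ≤ N` with `v_p(n) = k`. -/
lemma sum_factorization_eq_le {f : ℕ → ℝ} (hf : SubMult f) (N p k : ℕ) (hp : p.Prime) :
    ∑ n ∈ (Icc 1 N).filter (fun n => n.factorization p = k), f n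
      ≤ f (p ^ k) * ∑ m ∈ Icc 1 (N / p ^ k), f m := by
  classical
  set S := (Icc 1 N).filter (fun n => n.factorization p = k) with hS
  have hpk : 0 < p ^ k := pow_pos hp.pos k
  have hdec : ∀ n ∈ S, p ^ k * (n / p ^ k) = n ∧ Nat.Coprime (p ^ k) (n / p ^ k) := by
    intro n hn
    rw [hS, Finset.mem_filter, Finset.mem_Icc] at hn
    have h1 := Nat.ordProj_mul_ordCompl_eq_self n p
    rw [hn.2] at h1
    refine ⟨h1, ?_⟩
    have h2 := Nat.coprime_ordCompl hp (show n ≠ 0 by omega)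
    rw [hn.2] at h2
    exact Nat.Coprime.pow_left k h2
  calc ∑ n ∈ S, f n ≤ ∑ n ∈ S, f (p ^ k) * f (n / p ^ k) := by
        refine Finset.sum_le_sum fun n hn => ?_
        obtain ⟨h1, h2⟩ := hdec n hn
        calc f n = f (p ^ k * (n / p ^ k)) := by rw [h1]
          _ ≤ _ := hf.mul_le _ _ h2
    _ = f (p ^ k) * ∑ m ∈ S.image (fun n => n / p ^ k), f m := by
        rw [← Finset.mul_sum, Finset.sum_image]
        intro a ha b hb hab
        have h1 := (hdec a ha).1
        have h2 := (hdec b hb).1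
        simp only at hab
        rw [← h1, ← h2, hab]
    _ ≤ f (p ^ k) * ∑ m ∈ Icc 1 (N / p ^ k), f m := by
        refine mul_le_mul_of_nonneg_left ?_ (hf.nonneg _)
        refine Finset.sum_le_sum_of_subset_of_nonneg ?_ (fun _ _ _ => hf.nonneg _)
        intro m hm
        rw [Finset.mem_image] at hm
        obtain ⟨n, hn, rfl⟩ := hm
        have h1 := (hdec n hn).1
        rw [hS, Finset.mem_filter, Finset.mem_Icc] at hn
        rw [Finset.mem_Icc]
        refine ⟨?_, Nat.div_le_div_right hn.1.2⟩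
        rcases Nat.eq_zero_or_pos (n / p ^ k) with h | h
        · rw [h, mul_zero] at h1; omega
        · exact h

/-- Sum over `n` of `f n log n`, first bound. -/
lemma sum_mul_log_le {f : ℕ → ℝ} (hf : SubMult f) (N : ℕ) :
    ∑ n ∈ Icc 1 N, f n * Real.log n
      ≤ ∑ p ∈ Nat.primesLE N, ∑ k ∈ Icc 1 N,
          ((k : ℝ) * Real.log p) * (f (p ^ k) * ∑ m ∈ Icc 1 (N / p ^ k), f m) := by
  classical
  calc ∑ n ∈ Icc 1 N, f n * Real.log n
      = ∑ n ∈ Icc 1 N, ∑ p ∈ Nat.primesLE N, f n * ((n.factorization p : ℝ) * Real.log p) := by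
        refine Finset.sum_congr rfl fun n hn => ?_
        rw [log_eq_sum_primesLE hn, Finset.mul_sum]
    _ = ∑ p ∈ Nat.primesLE N, ∑ n ∈ Icc 1 N, f n * ((n.factorization p : ℝ) * Real.log p) :=
        Finset.sum_comm
    _ = ∑ p ∈ Nat.primesLE N, ∑ k ∈ Icc 1 N,
          ((k : ℝ) * Real.log p) *
            ∑ n ∈ (Icc 1 N).filter (fun n => n.factorization p = k), f n := by
        refine Finset.sum_congr rfl fun p hp => ?_
        have h1 : ∑ n ∈ Icc 1 N, f n * ((n.factorization p : ℝ) * Real.log p)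
            = ∑ k ∈ Icc 0 N, ∑ n ∈ (Icc 1 N).filter (fun n => n.factorization p = k),
                f n * ((n.factorization p : ℝ) * Real.log p) := by
          rw [Finset.sum_fiberwise_of_maps_to]
          intro n hn
          rw [Finset.mem_Icc]
          exact ⟨Nat.zero_le _, factorization_le_of_mem hn⟩
        have h2 : ∀ k, ∑ n ∈ (Icc 1 N).filter (fun n => n.factorization p = k),
                f n * ((n.factorization p : ℝ) * Real.log p)
            = ((k : ℝ) * Real.log p) *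
            ∑ n ∈ (Icc 1 N).filter (fun n => n.factorization p = k), f n := by
          intro k
          rw [Finset.mul_sum]
          refine Finset.sum_congr rfl fun n hn => ?_
          rw [Finset.mem_filter] at hn
          rw [hn.2]; ring
        rw [h1]
        simp only [h2]
        rw [← Finset.insert_Icc_succ_left_eq_Icc (Nat.zero_le N), Finset.sum_insert (by simp)]
        simp
    _ ≤ _ := by
        refine Finset.sum_le_sum fun p hp => Finset.sum_le_sum fun k _ => ?_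
        have hpp := Nat.prime_of_mem_primesLE hp
        refine mul_le_mul_of_nonneg_left (sum_factorization_eq_le hf N p k hpp) ?_
        have : 0 ≤ Real.log p := Real.log_nonneg (by exact_mod_cast hpp.one_le)
        positivity

/-- **Hall-Tenenbaum**. -/
theorem hall_tenenbaum {f : ℕ → ℝ} (hf : SubMult f) {A B : ℝ}
    (hA : ∀ y : ℕ, ∑ p ∈ Nat.primesLE y, f p * Real.log p ≤ A * y) (N : ℕ)
    (hB : ∑ p ∈ Nat.primesLE N, ∑ k ∈ Icc 2 N,
      f (p ^ k) * ((k : ℝ) * Real.log p) / (p : ℝ) ^ k ≤ B) :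
    (∑ n ∈ Icc 1 N, f n) * Real.log N ≤ (A + B + 1) * N * ∑ n ∈ Icc 1 N, f n / n := by
  classical
  rcases Nat.eq_zero_or_pos N with rfl | hN
  · simp
  set D : ℝ := ∑ n ∈ Icc 1 N, f n / n with hD
  have hD0 : 0 ≤ D := Finset.sum_nonneg fun n _ => div_nonneg (hf.nonneg n) (Nat.cast_nonneg n)
  have hN0 : (0 : ℝ) < N := by exact_mod_cast hN
  -- part 1: sum f n log n
  have hsplit : ∑ n ∈ Icc 1 N, f n * Real.log n
      ≤ (∑ p ∈ Nat.primesLE N, Real.log p * (f p * ∑ m ∈ Icc 1 (N / p), f m))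
        + ∑ p ∈ Nat.primesLE N, ∑ k ∈ Icc 2 N,
          ((k : ℝ) * Real.log p) * (f (p ^ k) * ∑ m ∈ Icc 1 (N / p ^ k), f m) := by
    refine (sum_mul_log_le hf N).trans (le_of_eq ?_)
    rw [← Finset.sum_add_distrib]
    refine Finset.sum_congr rfl fun p _ => ?_
    rw [← Finset.insert_Icc_succ_left_eq_Icc hN, Finset.sum_insert (by simp)]
    simp
  have hk1 : ∑ p ∈ Nat.primesLE N, Real.log p * (f p * ∑ m ∈ Icc 1 (N / p), f m)
      ≤ A * N * D := by
    have h1 : ∑ p ∈ Nat.primesLE N, Real.log p * (f p * ∑ m ∈ Icc 1 (N / p), f m)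
        = ∑ m ∈ Icc 1 N, f m * ∑ p ∈ Nat.primesLE (N / m), f p * Real.log p := by
      simp only [Finset.mul_sum]
      rw [Finset.sum_comm' (t' := Icc 1 N) (s' := fun m => Nat.primesLE (N / m))]
      · refine Finset.sum_congr rfl fun m _ => Finset.sum_congr rfl fun p _ => by ring
      · intro p m
        rw [Nat.mem_primesLE, Nat.mem_primesLE, Finset.mem_Icc, Finset.mem_Icc]
        constructor
        · rintro ⟨⟨h1, h2⟩, h3, h4⟩
          have h5 : m * p ≤ N := (Nat.le_div_iff_mul_le h2.pos).1 h4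
          refine ⟨⟨(Nat.le_div_iff_mul_le (by omega)).2 (by rw [mul_comm]; exact h5), h2⟩, h3, ?_⟩
          exact (Nat.le_mul_of_pos_right m h2.pos).trans h5
        · rintro ⟨⟨h1, h2⟩, h3, h4⟩
          have h5 : p * m ≤ N := (Nat.le_div_iff_mul_le (by omega)).1 h1
          refine ⟨⟨(Nat.le_mul_of_pos_right p (by omega)).trans h5, h2⟩, h3, ?_⟩
          exact (Nat.le_div_iff_mul_le h2.pos).2 (by rw [mul_comm]; exact h5)
    rw [h1, hD, Finset.mul_sum]
    refine Finset.sum_le_sum fun m hm => ?_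
    rw [Finset.mem_Icc] at hm
    have hm0 : (0 : ℝ) < m := by exact_mod_cast (by omega : 0 < m)
    have hA0 : 0 ≤ A := by
      have := hA 1
      have h0 : Nat.primesLE 1 = ∅ := by decide
      rw [h0] at this
      simpa using this
    calc f m * ∑ p ∈ Nat.primesLE (N / m), f p * Real.log p
        ≤ f m * (A * ((N / m : ℕ) : ℝ)) := mul_le_mul_of_nonneg_left (hA _) (hf.nonneg m)
      _ ≤ f m * (A * ((N : ℝ) / m)) := by
          refine mul_le_mul_of_nonneg_left (mul_le_mul_of_nonneg_left Nat.cast_div_le hA0)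
            (hf.nonneg m)
      _ = A * N * (f m / m) := by field_simp
  have hk2 : ∑ p ∈ Nat.primesLE N, ∑ k ∈ Icc 2 N,
          ((k : ℝ) * Real.log p) * (f (p ^ k) * ∑ m ∈ Icc 1 (N / p ^ k), f m)
      ≤ B * N * D := by
    have h1 : ∑ p ∈ Nat.primesLE N, ∑ k ∈ Icc 2 N,
          ((k : ℝ) * Real.log p) * (f (p ^ k) * ∑ m ∈ Icc 1 (N / p ^ k), f m)
        ≤ ∑ p ∈ Nat.primesLE N, ∑ k ∈ Icc 2 N,
          (f (p ^ k) * ((k : ℝ) * Real.log p) / (p : ℝ) ^ k) * (N * D) := by
      refine Finset.sum_le_sum fun p hp => Finset.sum_le_sum fun k _ => ?_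
      have hpp := Nat.prime_of_mem_primesLE hp
      have hp0 : (0 : ℝ) < p := by exact_mod_cast hpp.pos
      have hpk : (0 : ℝ) < (p : ℝ) ^ k := pow_pos hp0 k
      have hlog : 0 ≤ Real.log p := Real.log_nonneg (by exact_mod_cast hpp.one_le)
      have h2 : ∑ m ∈ Icc 1 (N / p ^ k), f m ≤ (N / (p : ℝ) ^ k) * D := by
        rw [hD, Finset.mul_sum]
        calc ∑ m ∈ Icc 1 (N / p ^ k), f m
            ≤ ∑ m ∈ Icc 1 (N / p ^ k), (N / (p : ℝ) ^ k) * (f m / m) := by
              refine Finset.sum_le_sum fun m hm => ?_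
              rw [Finset.mem_Icc] at hm
              have hm0 : (0 : ℝ) < m := by exact_mod_cast (by omega : 0 < m)
              have h3 : m * p ^ k ≤ N := (Nat.le_div_iff_mul_le (pow_pos hpp.pos k)).1 hm.2
              have h4 : (m : ℝ) * (p : ℝ) ^ k ≤ N := by exact_mod_cast h3
              have h5 : (1 : ℝ) ≤ N / (p : ℝ) ^ k / m := by
                rw [le_div_iff₀ hm0, le_div_iff₀ hpk]; linarith
              calc f m = 1 * f m := (one_mul _).symm
                _ ≤ (N / (p : ℝ) ^ k / m) * f m := mul_le_mul_of_nonneg_right h5 (hf.nonneg m)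
                _ = _ := by ring
          _ ≤ ∑ m ∈ Icc 1 N, (N / (p : ℝ) ^ k) * (f m / m) := by
              refine Finset.sum_le_sum_of_subset_of_nonneg ?_ ?_
              · intro m hm
                rw [Finset.mem_Icc] at hm ⊢
                exact ⟨hm.1, hm.2.trans (Nat.div_le_self _ _)⟩
              · intro m _ _
                exact mul_nonneg (by positivity) (div_nonneg (hf.nonneg m) (Nat.cast_nonneg m))
      calc ((k : ℝ) * Real.log p) * (f (p ^ k) * ∑ m ∈ Icc 1 (N / p ^ k), f m)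
          ≤ ((k : ℝ) * Real.log p) * (f (p ^ k) * ((N / (p : ℝ) ^ k) * D)) := by
            refine mul_le_mul_of_nonneg_left (mul_le_mul_of_nonneg_left h2 (hf.nonneg _))
              (by positivity)
        _ = _ := by ring
    refine h1.trans ?_
    simp only [← Finset.sum_mul]
    calc _ ≤ B * (N * D) := mul_le_mul_of_nonneg_right hB (by positivity)
      _ = B * N * D := by ring
  -- part 2: sum f n log (N / n)
  have hrest : ∑ n ∈ Icc 1 N, f n * (Real.log N - Real.log n) ≤ N * D := by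
    rw [hD, Finset.mul_sum]
    refine Finset.sum_le_sum fun n hn => ?_
    rw [Finset.mem_Icc] at hn
    have hn0 : (0 : ℝ) < n := by exact_mod_cast (by omega : 0 < n)
    have h1 : Real.log N - Real.log n ≤ N / n := by
      rw [← Real.log_div hN0.ne' hn0.ne']
      have := Real.log_le_sub_one_of_pos (div_pos hN0 hn0)
      linarith
    calc f n * (Real.log N - Real.log n) ≤ f n * (N / n) :=
          mul_le_mul_of_nonneg_left h1 (hf.nonneg n)
      _ = N * (f n / n) := by ring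
  have htot : (∑ n ∈ Icc 1 N, f n) * Real.log N
      = ∑ n ∈ Icc 1 N, f n * (Real.log N - Real.log n) + ∑ n ∈ Icc 1 N, f n * Real.log n := by
    rw [← Finset.sum_add_distrib, Finset.sum_mul]
    refine Finset.sum_congr rfl fun n _ => by ring
  rw [htot]
  have : (A + B + 1) * N * D = N * D + (A * N * D + B * N * D) := by ring
  rw [this]
  linarith

end Crest.Agent.Lib.HallTen
end

-- ▼ part Lib/HallTenWt

/-!
# Completely multiplicative weights `wt z n = ∏ z_p ^ v_p(n)`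

For `0 ≤ z_p ≤ (3/4) p`:
* `sum_wt_div_le_exp` : `∑_{n ∈ T} wt z n / n ≤ exp (∑_{p ∈ s} (z_p/p + 2 (z_p/p)²))`, `T` any finite
  set of nonzero numbers all of whose prime factors are in `s`.
* `sum_wt_le` : `(∑_{n ≤ N} wt z n) log N ≤ (1 + 2 Z + 40 Z²) N exp (∑_{p ≤ N} ...)`, `z_p ≤ Z`.
-/

set_option autoImplicit false

namespace Crest.Agent.Lib.HallTen

open Finset Nat

/-- completely multiplicative weight -/
noncomputable def wt (z : ℕ → ℝ) (n : ℕ) : ℝ :=
  if n = 0 then 0 else n.factorization.prod fun p k => z p ^ k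

variable {z : ℕ → ℝ}

lemma wt_zero (z : ℕ → ℝ) : wt z 0 = 0 := by simp [wt]

lemma wt_one (z : ℕ → ℝ) : wt z 1 = 1 := by simp [wt]

lemma wt_of_ne_zero (z : ℕ → ℝ) {n : ℕ} (hn : n ≠ 0) :
    wt z n = n.factorization.prod fun p k => z p ^ k := by simp [wt, hn]

lemma wt_mul (z : ℕ → ℝ) (m n : ℕ) : wt z (m * n) = wt z m * wt z n := by
  rcases eq_or_ne m 0 with rfl | hm
  · simp [wt_zero]
  rcases eq_or_ne n 0 with rfl | hn
  · simp [wt_zero]
  rw [wt_of_ne_zero z hm, wt_of_ne_zero z hn, wt_of_ne_zero z (mul_ne_zero hm hn),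
    Nat.factorization_mul hm hn]
  exact Finsupp.prod_add_index' (fun _ => pow_zero _) (fun _ _ _ => pow_add _ _ _)

/-- `wt` as a monoid homomorphism. -/
noncomputable def wtHom (z : ℕ → ℝ) : ℕ →* ℝ where
  toFun := wt z
  map_one' := wt_one z
  map_mul' := wt_mul z

@[simp] lemma wtHom_apply (z : ℕ → ℝ) (n : ℕ) : wtHom z n = wt z n := rfl

lemma wt_pow (z : ℕ → ℝ) (n k : ℕ) : wt z (n ^ k) = wt z n ^ k := map_pow (wtHom z) n k

lemma wt_prime (z : ℕ → ℝ) {p : ℕ} (hp : p.Prime) : wt z p = z p := by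
  rw [wt_of_ne_zero z hp.ne_zero, hp.factorization]
  simp

lemma wt_nonneg (hz : ∀ p, 0 ≤ z p) (n : ℕ) : 0 ≤ wt z n := by
  unfold wt
  split_ifs
  · exact le_refl _
  · exact Finset.prod_nonneg fun p _ => pow_nonneg (hz p) _



lemma subMult_wt (hz : ∀ p, 0 ≤ z p) : SubMult (wt z) :=
  ⟨wt_nonneg hz, fun m n _ => (wt_mul z m n).le⟩

/-! ### Euler products -/

lemma neg_log_one_sub_le {t : ℝ} (h0 : 0 ≤ t) (h1 : t ≤ 3 / 4) :
    (1 - t)⁻¹ ≤ Real.exp (t + 2 * t ^ 2) := by
  have hpos : 0 < 1 - t := by linarith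
  rw [inv_le_comm₀ hpos (Real.exp_pos _), ← Real.exp_neg]
  -- `exp (-(t + 2 t²)) ≤ 1 - t`
  have h2 : Real.exp (-(t + 2 * t ^ 2)) ≤ 1 / (1 + (t + 2 * t ^ 2) + (t + 2 * t ^ 2) ^ 2 / 2) := by
    rw [Real.exp_neg, ← one_div]
    have h3 : 0 ≤ t + 2 * t ^ 2 := by positivity
    have h4 := Real.quadratic_le_exp_of_nonneg h3
    exact one_div_le_one_div_of_le (by positivity) h4
  refine h2.trans ?_
  rw [div_le_iff₀ (by positivity)]
  have h5 : (1 - t) * (1 + (t + 2 * t ^ 2) + (t + 2 * t ^ 2) ^ 2 / 2) - 1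
      = t ^ 2 * (3 / 2 - t / 2 - 2 * t ^ 3) := by ring
  have h6 : t ^ 3 ≤ 27 / 64 := by
    calc t ^ 3 ≤ (3 / 4) ^ 3 := pow_le_pow_left₀ h0 h1 3
      _ = _ := by norm_num
  nlinarith [sq_nonneg t, mul_nonneg (sq_nonneg t) (by linarith : (0:ℝ) ≤ 3/2 - t/2 - 2*t^3)]

lemma wt_div_hom (z : ℕ → ℝ) (n : ℕ) : wt (fun p => z p / p) n = wt z n / n := by
  rcases eq_or_ne n 0 with rfl | hn
  · simp [wt_zero]
  rw [wt_of_ne_zero _ hn, wt_of_ne_zero _ hn]
  have h1 : (n : ℝ) = n.factorization.prod fun p k => (p : ℝ) ^ k := by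
    conv_lhs => rw [← Nat.prod_factorization_pow_eq_self hn]
    rw [Finsupp.prod, Finsupp.prod]
    push_cast
    rfl
  rw [h1]
  simp only [Finsupp.prod, div_pow]
  rw [Finset.prod_div_distrib]

/-- Euler product bound, product form. -/
theorem sum_wt_div_le_prod (hz0 : ∀ p, 0 ≤ z p) (hz : ∀ p : ℕ, p.Prime → z p < p)
    (s : Finset ℕ) (T : Finset ℕ)
    (hT : ∀ n ∈ T, n ≠ 0 ∧ ∀ p : ℕ, p.Prime → p ∣ n → p ∈ s) :
    ∑ n ∈ T, wt z n / n ≤ ∏ p ∈ s with p.Prime, (1 - z p / p)⁻¹ := by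
  have h1 := EulerProduct.summable_and_hasSum_factoredNumbers_prod_filter_prime_geometric
    (f := wtHom (fun p => z p / p)) (by
      intro p hp
      have hp0 : (0 : ℝ) < p := by exact_mod_cast hp.pos
      rw [wtHom_apply, wt_prime _ hp, Real.norm_of_nonneg (div_nonneg (hz0 p) hp0.le),
        div_lt_one hp0]
      exact hz p hp) s
  have h2 : ∀ p ∈ s.filter (fun p => p.Prime), (1 - wtHom (fun p => z p / p) p)⁻¹
      = (1 - z p / p)⁻¹ := by
    intro p hp
    rw [Finset.mem_filter] at hp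
    rw [wtHom_apply, wt_prime _ hp.2]
  rw [Finset.prod_congr rfl h2] at h1
  have hmem : ∀ n ∈ T, n ∈ Nat.factoredNumbers s := by
    intro n hn
    rw [Nat.mem_factoredNumbers']
    exact fun p hp hpn => (hT n hn).2 p hp hpn
  let T' : Finset (Nat.factoredNumbers s) := T.subtype (fun n => n ∈ Nat.factoredNumbers s)
  have h3 : ∑ n ∈ T, wt z n / n = ∑ m ∈ T', wtHom (fun p => z p / p) m := by
    rw [Finset.sum_subtype_of_mem (fun n => wtHom (fun p => z p / p) n) hmem]
    exact Finset.sum_congr rfl fun n _ => (wt_div_hom z n).symm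
  rw [h3]
  refine sum_le_hasSum _ (fun m _ => ?_) h1.2
  rw [wtHom_apply]
  exact wt_nonneg (fun p => div_nonneg (hz0 p) (Nat.cast_nonneg p)) _

theorem sum_wt_div_le_exp (hz0 : ∀ p, 0 ≤ z p) (hz : ∀ p : ℕ, p.Prime → z p ≤ 3 / 4 * p)
    (s : Finset ℕ) (T : Finset ℕ)
    (hT : ∀ n ∈ T, n ≠ 0 ∧ ∀ p : ℕ, p.Prime → p ∣ n → p ∈ s) :
    ∑ n ∈ T, wt z n / n ≤
      Real.exp (∑ p ∈ s with p.Prime, (z p / p + 2 * (z p / p) ^ 2)) := by
  have hlt : ∀ p : ℕ, p.Prime → z p < p := by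
    intro p hp
    have hp0 : (0 : ℝ) < p := by exact_mod_cast hp.pos
    have := hz p hp
    linarith
  refine (sum_wt_div_le_prod hz0 hlt s T hT).trans ?_
  rw [Real.exp_sum]
  refine Finset.prod_le_prod ?_ ?_
  · intro p hp
    rw [Finset.mem_filter] at hp
    have hp0 : (0 : ℝ) < p := by exact_mod_cast hp.2.pos
    have := hlt p hp.2
    have h1 : z p / p < 1 := by rw [div_lt_one hp0]; exact this
    exact inv_nonneg.2 (by linarith)
  · intro p hp
    rw [Finset.mem_filter] at hp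
    have hp0 : (0 : ℝ) < p := by exact_mod_cast hp.2.pos
    refine neg_log_one_sub_le (div_nonneg (hz0 p) hp0.le) ?_
    rw [div_le_iff₀ hp0]
    exact hz p hp.2

/-! ### Counting -/

lemma sum_mul_pow_eq (t : ℝ) (N : ℕ) (hN : 1 ≤ N) :
    (1 - t) ^ 2 * ∑ k ∈ Icc 2 N, (k : ℝ) * t ^ k
      = t ^ 2 * (2 - t) - t ^ (N + 1) * (N + 1 - N * t) := by
  induction N, hN using Nat.le_induction with
  | base => norm_num
  | succ n hn ih =>
    rw [Finset.sum_Icc_succ_top (by omega), mul_add, ih]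
    push_cast
    ring

lemma sum_mul_pow_le {t : ℝ} (h0 : 0 ≤ t) (h1 : t ≤ 3 / 4) (N : ℕ) :
    ∑ k ∈ Icc 2 N, (k : ℝ) * t ^ k ≤ 20 * t ^ 2 := by
  rcases Nat.eq_zero_or_pos N with rfl | hN
  · simp; positivity
  have h2 := sum_mul_pow_eq t N hN
  have h3 : 0 ≤ t ^ (N + 1) * (N + 1 - N * t) := by
    refine mul_nonneg (pow_nonneg h0 _) ?_
    have : (N : ℝ) * t ≤ N := by
      have : (0 : ℝ) ≤ N := Nat.cast_nonneg N
      nlinarith
    linarith
  have h4 : (1 / 16 : ℝ) ≤ (1 - t) ^ 2 := by nlinarith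
  have h5 : 0 ≤ ∑ k ∈ Icc 2 N, (k : ℝ) * t ^ k :=
    Finset.sum_nonneg fun k _ => mul_nonneg (Nat.cast_nonneg k) (pow_nonneg h0 _)
  -- `(2 - t) / (1 - t)² ≤ 20`
  have h6 : t ^ 2 * (2 - t) ≤ (1 - t) ^ 2 * (20 * t ^ 2) := by
    have : (2 - t) ≤ 20 * (1 - t) ^ 2 := by nlinarith
    nlinarith [sq_nonneg t]
  have h7 : 0 < (1 - t) ^ 2 := by linarith
  refine le_of_mul_le_mul_left ?_ h7
  linarith

lemma log_four_le_two : Real.log 4 ≤ 2 := by
  have h1 : Real.log 4 = 2 * Real.log 2 := by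
    rw [show (4 : ℝ) = 2 ^ 2 by norm_num, Real.log_pow]; norm_num
  have := Real.log_two_lt_d9
  rw [h1]; linarith

/-- Mean value bound for the completely multiplicative weight. -/
theorem sum_wt_le (hz0 : ∀ p, 0 ≤ z p) (hz : ∀ p : ℕ, p.Prime → z p ≤ 3 / 4 * p) {Z : ℝ}
    (hZ : ∀ p : ℕ, p.Prime → z p ≤ Z) (N : ℕ) :
    (∑ n ∈ Icc 1 N, wt z n) * Real.log N
      ≤ (1 + 2 * Z + 40 * Z ^ 2) * N *
        Real.exp (∑ p ∈ Nat.primesLE N, (z p / p + 2 * (z p / p) ^ 2)) := by
  have hZ0 : 0 ≤ Z := (hz0 2).trans (hZ 2 Nat.prime_two)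
  have hA : ∀ y : ℕ, ∑ p ∈ Nat.primesLE y, wt z p * Real.log p ≤ (2 * Z) * y := by
    intro y
    calc ∑ p ∈ Nat.primesLE y, wt z p * Real.log p
        ≤ ∑ p ∈ Nat.primesLE y, Z * Real.log p := by
          refine Finset.sum_le_sum fun p hp => ?_
          have hpp := Nat.prime_of_mem_primesLE hp
          rw [wt_prime z hpp]
          exact mul_le_mul_of_nonneg_right (hZ p hpp)
            (Real.log_nonneg (by exact_mod_cast hpp.one_le))
      _ = Z * ∑ p ∈ Nat.primesLE y, Real.log p := by rw [Finset.mul_sum]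
      _ ≤ Z * (Real.log 4 * y) := mul_le_mul_of_nonneg_left (Mertens.theta_nat y) hZ0
      _ ≤ Z * (2 * y) := by
          refine mul_le_mul_of_nonneg_left ?_ hZ0
          exact mul_le_mul_of_nonneg_right log_four_le_two (Nat.cast_nonneg y)
      _ = (2 * Z) * y := by ring
  have hB : ∑ p ∈ Nat.primesLE N, ∑ k ∈ Icc 2 N,
      wt z (p ^ k) * ((k : ℝ) * Real.log p) / (p : ℝ) ^ k ≤ 40 * Z ^ 2 := by
    calc ∑ p ∈ Nat.primesLE N, ∑ k ∈ Icc 2 N,
          wt z (p ^ k) * ((k : ℝ) * Real.log p) / (p : ℝ) ^ k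
        ≤ ∑ p ∈ Nat.primesLE N, (20 * Z ^ 2) * (Real.log p / (p * (p - 1))) := by
          refine Finset.sum_le_sum fun p hp => ?_
          have hpp := Nat.prime_of_mem_primesLE hp
          have hp0 : (0 : ℝ) < p := by exact_mod_cast hpp.pos
          have hp2 : (2 : ℝ) ≤ p := by exact_mod_cast hpp.two_le
          have hlog : 0 ≤ Real.log p := Real.log_nonneg (by linarith)
          have h1 : ∑ k ∈ Icc 2 N, wt z (p ^ k) * ((k : ℝ) * Real.log p) / (p : ℝ) ^ k
              = Real.log p * ∑ k ∈ Icc 2 N, (k : ℝ) * (z p / p) ^ k := by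
            rw [Finset.mul_sum]
            refine Finset.sum_congr rfl fun k _ => ?_
            rw [wt_pow, wt_prime z hpp, div_pow]
            ring
          have h2 : ∑ k ∈ Icc 2 N, (k : ℝ) * (z p / p) ^ k ≤ 20 * (z p / p) ^ 2 := by
            refine sum_mul_pow_le (div_nonneg (hz0 p) hp0.le) ?_ N
            rw [div_le_iff₀ hp0]; exact hz p hpp
          rw [h1]
          calc Real.log p * ∑ k ∈ Icc 2 N, (k : ℝ) * (z p / p) ^ k
              ≤ Real.log p * (20 * (z p / p) ^ 2) := mul_le_mul_of_nonneg_left h2 hlog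
            _ ≤ Real.log p * (20 * (Z ^ 2 / (p * (p - 1)))) := by
                refine mul_le_mul_of_nonneg_left ?_ hlog
                refine mul_le_mul_of_nonneg_left ?_ (by norm_num)
                rw [div_pow]
                have h3 : z p ^ 2 ≤ Z ^ 2 := pow_le_pow_left₀ (hz0 p) (hZ p hpp) 2
                have h4 : (0 : ℝ) < p * (p - 1) := mul_pos hp0 (by linarith)
                have h5 : (p : ℝ) * (p - 1) ≤ (p : ℝ) ^ 2 := by nlinarith
                calc z p ^ 2 / (p : ℝ) ^ 2 ≤ Z ^ 2 / (p : ℝ) ^ 2 :=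
                      div_le_div_of_nonneg_right h3 (by positivity)
                  _ ≤ Z ^ 2 / (p * (p - 1)) :=
                      div_le_div_of_nonneg_left (sq_nonneg Z) h4 h5
            _ = _ := by ring
      _ = (20 * Z ^ 2) * ∑ p ∈ Nat.primesLE N, (Real.log p / (p * (p - 1))) := by
          rw [Finset.mul_sum]
      _ ≤ (20 * Z ^ 2) * 2 :=
          mul_le_mul_of_nonneg_left (Mertens.sum_primes_log_div_mul_le N) (by positivity)
      _ = 40 * Z ^ 2 := by ring
  refine (hall_tenenbaum (subMult_wt hz0) hA N hB).trans ?_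
  have hsum : ∑ n ∈ Icc 1 N, wt z n / n
      ≤ Real.exp (∑ p ∈ Nat.primesLE N, (z p / p + 2 * (z p / p) ^ 2)) := by
    have h1 := sum_wt_div_le_exp hz0 hz (Nat.primesLE N) (Icc 1 N) (by
      intro n hn
      rw [Finset.mem_Icc] at hn
      refine ⟨by omega, fun p hp hpn => ?_⟩
      rw [Nat.mem_primesLE]
      exact ⟨(Nat.le_of_dvd (by omega) hpn).trans hn.2, hp⟩)
    have h2 : (Nat.primesLE N).filter (fun p => p.Prime) = Nat.primesLE N :=
      Finset.filter_true_of_mem fun p hp => Nat.prime_of_mem_primesLE hp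
    rwa [h2] at h1
  have h3 : (2 * Z + 40 * Z ^ 2 + 1) * N = (1 + 2 * Z + 40 * Z ^ 2) * (N : ℝ) := by ring
  rw [h3]
  exact mul_le_mul_of_nonneg_left hsum (by positivity)

/-! ### Mertens forms -/

lemma log_two_inv_bounds : 1 / Real.log 2 ≤ 1.4427 ∧ -Real.log (Real.log 2) ≤ 0.4427 := by
  have h1 := Real.log_two_gt_d9
  have h0 : 0 < Real.log 2 := by linarith
  have h2 : 1 / Real.log 2 ≤ 1.4427 := by
    rw [div_le_iff₀ h0]; nlinarith
  refine ⟨h2, ?_⟩
  have h3 := Real.log_le_sub_one_of_pos (show 0 < 1 / Real.log 2 by positivity)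
  rw [one_div, Real.log_inv] at h3
  rw [one_div] at h2
  linarith

/-- `∑_{p ≤ N} 1/p ≤ log log N + 12`. -/
theorem sum_inv_primesLE_le {N : ℕ} (hN : 2 ≤ N) :
    ∑ p ∈ Nat.primesLE N, (1 : ℝ) / p ≤ Real.log (Real.log N) + 12 := by
  have h1 := Mertens.mertens_two_nat 2 N le_rfl hN
  have h2 := (abs_le.1 h1).2
  have h3 : ∑ p ∈ Nat.primesLE N, (1 : ℝ) / p ≤ 1 / 2 + Mertens.S 2 N := by
    have hsub : Nat.primesLE N ⊆ insert 2 (Mertens.primesIoc 2 N) := by
      intro p hp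
      rw [Nat.mem_primesLE] at hp
      rw [Finset.mem_insert, Mertens.mem_primesIoc]
      rcases hp.2.two_le.lt_or_eq with h | h
      · exact Or.inr ⟨⟨h, hp.1⟩, hp.2⟩
      · exact Or.inl h.symm
    calc ∑ p ∈ Nat.primesLE N, (1 : ℝ) / p
        ≤ ∑ p ∈ insert 2 (Mertens.primesIoc 2 N), (1 : ℝ) / p :=
          Finset.sum_le_sum_of_subset_of_nonneg hsub (fun p _ _ => by positivity)
      _ = 1 / 2 + Mertens.S 2 N := by
          rw [Finset.sum_insert (by simp [Mertens.mem_primesIoc])]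
          simp [Mertens.S]
  obtain ⟨h4, h5⟩ := log_two_inv_bounds
  have h6 : 7 / Real.log ((2 : ℕ) : ℝ) = 7 * (1 / Real.log 2) := by push_cast; ring
  rw [h6] at h2
  push_cast at h2
  linarith

lemma sum_inv_sq_le {s : Finset ℕ} {U : ℕ} (hU : 1 ≤ U) (hs : ∀ p ∈ s, U < p) :
    ∑ p ∈ s, 1 / (p : ℝ) ^ 2 ≤ 1 / (U : ℝ) := by
  classical
  rcases s.eq_empty_or_nonempty with rfl | hne
  · simp
  have hsub : s ⊆ Ioc U (max (s.sup id) U) := by
    intro p hp
    rw [Finset.mem_Ioc]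
    exact ⟨hs p hp, le_max_of_le_left (Finset.le_sup (f := id) hp)⟩
  calc ∑ p ∈ s, 1 / (p : ℝ) ^ 2 ≤ ∑ p ∈ Ioc U (max (s.sup id) U), 1 / (p : ℝ) ^ 2 :=
        Finset.sum_le_sum_of_subset_of_nonneg hsub (fun p _ _ => by positivity)
    _ = ∑ p ∈ Ioc U (max (s.sup id) U), ((p : ℝ) ^ 2)⁻¹ := by simp
    _ ≤ (U : ℝ)⁻¹ - ((max (s.sup id) U : ℕ) : ℝ)⁻¹ :=
        sum_Ioc_inv_sq_le_sub (by omega) (le_max_right _ _)
    _ ≤ 1 / U := by
        rw [one_div]
        have : (0 : ℝ) ≤ ((max (s.sup id) U : ℕ) : ℝ)⁻¹ := by positivity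
        linarith

/-! ### Windows -/

/-- Number of prime factors of `n` (with multiplicity) satisfying `P`. -/
def Om (P : ℕ → Prop) [DecidablePred P] (n : ℕ) : ℕ :=
  ∑ p ∈ n.primeFactors with P p, n.factorization p

section window

variable (P : ℕ → Prop) [DecidablePred P]












end window

/-! ### Rankin bound for smooth numbers -/




end Crest.Agent.Lib.HallTen
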