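import Mathlib

/-!
# The prime number theorem

Wiener-Ikehara theorem for Dirichlet series with nonnegative coefficients satisfying a Chebyshev
bound (Fejer kernel + Riemann-Lebesgue), and the prime number theorem (also in arithmetic
progressions) as consequences of Mathlib's `LFunctionResidueClassAux`.

Main results: `wiener_ikehara`, `psi_div_tendsto`, `theta_div_tendsto`, `primeCounting_tendsto`,
`primeCounting_mul_div_tendsto`, `abs_theta_sub_le`, `abs_primeCounting_sub_le`,
`pnt_residueClass`, `theta_residueClass`.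
-/

open MeasureTheory Set Filter Topology

noncomputable section

namespace Crest.Agent.Lib.PNT

/-- Fejer-type kernel `2 (1 - cos (T v)) / v^2`. -/
def ker (T v : ℝ) : ℝ := 2 * (1 - Real.cos (T * v)) / v ^ 2

lemma ker_nonneg (T v : ℝ) : 0 ≤ ker T v := by
  unfold ker
  have := Real.cos_le_one (T * v)
  apply div_nonneg _ (sq_nonneg v)
  linarith

lemma ker_le_inv_sq (T v : ℝ) : ker T v ≤ 4 / v ^ 2 := by
  unfold ker
  have := Real.neg_one_le_cos (T * v)
  apply div_le_div_of_nonneg_right _ (sq_nonneg v)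
  linarith

lemma ker_le_sq (T v : ℝ) : ker T v ≤ T ^ 2 := by
  unfold ker
  rcases eq_or_ne v 0 with rfl | hv
  · simp [sq_nonneg]
  · have := Real.one_sub_sq_div_two_le_cos (x := T * v)
    have hv2 : 0 < v ^ 2 := by positivity
    rw [div_le_iff₀ hv2]
    nlinarith

lemma measurable_ker (T : ℝ) : Measurable (ker T) := by
  unfold ker
  fun_prop

lemma ker_le_inv (T v : ℝ) : ker T v ≤ (2 * T ^ 2 + 8) * (1 + v ^ 2)⁻¹ := by
  have h1 : 0 < 1 + v ^ 2 := by positivity
  rw [← div_eq_mul_inv, le_div_iff₀ h1]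
  by_cases hv : v ^ 2 ≤ 1
  · have h2 := ker_le_sq T v
    have h3 := ker_nonneg T v
    nlinarith [sq_nonneg T]
  · push Not at hv
    have h2 := ker_le_inv_sq T v
    have h3 : ker T v * v ^ 2 ≤ 4 := by
      rw [le_div_iff₀ (by positivity)] at h2
      exact h2
    have h4 : ker T v ≤ 4 := by
      have := ker_nonneg T v
      nlinarith
    nlinarith [sq_nonneg T]

lemma integrable_ker (T : ℝ) : Integrable (ker T) := by
  refine Integrable.mono' (integrable_inv_one_add_sq.const_mul (2 * T ^ 2 + 8))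
    (measurable_ker T).aestronglyMeasurable (Eventually.of_forall fun v => ?_)
  rw [Real.norm_of_nonneg (ker_nonneg T v)]
  exact ker_le_inv T v

/-- total mass -/
def mass (T : ℝ) : ℝ := ∫ v, ker T v

lemma ker_ge {T v : ℝ} (hT : 0 < T) (hv : 0 < v) (hv' : v ≤ 1 / T) :
    4 / Real.pi ^ 2 * T ^ 2 ≤ ker T v := by
  unfold ker
  have hpi := Real.pi_pos
  have h1 : |T * v| ≤ Real.pi := by
    rw [abs_of_pos (by positivity)]
    have : T * v ≤ 1 := by
      rw [le_div_iff₀ hT] at hv'
      linarith
    linarith [Real.pi_gt_three]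
  have h2 := Real.cos_le_one_sub_mul_cos_sq h1
  rw [le_div_iff₀ (by positivity)]
  have h3 : 2 / Real.pi ^ 2 * (T * v) ^ 2 ≤ 1 - Real.cos (T * v) := by linarith
  calc 4 / Real.pi ^ 2 * T ^ 2 * v ^ 2 = 2 * (2 / Real.pi ^ 2 * (T * v) ^ 2) := by ring
    _ ≤ _ := by linarith

lemma mass_ge {T : ℝ} (hT : 0 < T) : 4 / Real.pi ^ 2 * T ≤ mass T := by
  unfold mass
  have h1 : ∫ v in Ioc 0 (1 / T), ker T v ≤ ∫ v, ker T v :=
    setIntegral_le_integral (integrable_ker T) (Eventually.of_forall fun v => ker_nonneg T v)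
  refine le_trans ?_ h1
  have h2 : ∫ v in Ioc 0 (1 / T), (4 / Real.pi ^ 2 * T ^ 2) ≤ ∫ v in Ioc 0 (1 / T), ker T v := by
    apply setIntegral_mono_on
    · exact integrableOn_const (by simp)
    · exact (integrable_ker T).integrableOn
    · exact measurableSet_Ioc
    · intro v hv
      exact ker_ge hT hv.1 hv.2
  refine le_trans (le_of_eq ?_) h2
  rw [setIntegral_const]
  simp only [Measure.real, Real.volume_Ioc, sub_zero, smul_eq_mul]
  rw [ENNReal.toReal_ofReal (by positivity)]
  field_simp

/-- The tail of the kernel is bounded independently of `T`. -/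
lemma tail_le (T : ℝ) {a : ℝ} (ha : 0 < a) :
    ∫ v in {v : ℝ | a ≤ |v|}, ker T v ≤ 4 * (1 + 1 / a ^ 2) * Real.pi := by
  have hms : MeasurableSet {v : ℝ | a ≤ |v|} := measurableSet_le measurable_const (by fun_prop)
  have hint : Integrable (fun v : ℝ => 4 * (1 + 1 / a ^ 2) * (1 + v ^ 2)⁻¹) :=
    integrable_inv_one_add_sq.const_mul _
  calc ∫ v in {v : ℝ | a ≤ |v|}, ker T v
      ≤ ∫ v in {v : ℝ | a ≤ |v|}, 4 * (1 + 1 / a ^ 2) * (1 + v ^ 2)⁻¹ := by
        apply setIntegral_mono_on (integrable_ker T).integrableOn hint.integrableOn hms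
        intro v hv
        have hv1 : a ≤ |v| := hv
        have hv2 : a ^ 2 ≤ v ^ 2 := by
          rw [← sq_abs v]; gcongr
        have hv3 : 0 < v ^ 2 := lt_of_lt_of_le (by positivity) hv2
        refine (ker_le_inv_sq T v).trans ?_
        rw [← div_eq_mul_inv, div_le_div_iff₀ hv3 (by positivity)]
        have : v ^ 2 / a ^ 2 ≥ 1 := by
          rw [ge_iff_le, le_div_iff₀ (by positivity)]; linarith
        calc 4 * (1 + v ^ 2) ≤ 4 * (v ^ 2 / a ^ 2 + v ^ 2) := by linarith
          _ = _ := by ring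
    _ ≤ ∫ v, 4 * (1 + 1 / a ^ 2) * (1 + v ^ 2)⁻¹ :=
        setIntegral_le_integral hint (Eventually.of_forall fun v => by positivity)
    _ = _ := by
        rw [integral_const_mul, integral_univ_inv_one_add_sq]

lemma antideriv (T v : ℝ) (hv : v ≠ 0) (u : ℝ) :
    HasDerivAt (fun u : ℝ => ((T : ℂ) - u) * Complex.exp (Complex.I * v * u) / (Complex.I * v)
      + Complex.exp (Complex.I * v * u) / (Complex.I * v) ^ 2)
      (((T : ℂ) - u) * Complex.exp (Complex.I * v * u)) u := by
  have hne : Complex.I * (v : ℂ) ≠ 0 := by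
    simp [Complex.I_ne_zero, hv]
  have h0 : HasDerivAt (fun u : ℝ => (u : ℂ)) 1 u := Complex.ofRealCLM.hasDerivAt
  have h1 : HasDerivAt (fun u : ℝ => Complex.exp (Complex.I * v * u))
      (Complex.exp (Complex.I * v * u) * (Complex.I * v * 1)) u := (h0.const_mul _).cexp
  have h2 : HasDerivAt (fun u : ℝ => ((T : ℂ) - u)) (-1) u := h0.const_sub _
  have h3 := ((h2.mul h1).div_const (Complex.I * v)).add (h1.div_const ((Complex.I * v) ^ 2))
  refine h3.congr_deriv ?_
  have hI := Complex.I_ne_zero
  have hv' : (v : ℂ) ≠ 0 := by exact_mod_cast hv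
  field_simp
  ring

lemma ker_eq_half (T v : ℝ) (hv : v ≠ 0) :
    ∫ u in (0 : ℝ)..T, ((T : ℂ) - u) * Complex.exp (Complex.I * v * u)
      = (Complex.exp (Complex.I * v * T) - 1) / (Complex.I * v) ^ 2 - T / (Complex.I * v) := by
  rw [intervalIntegral.integral_eq_sub_of_hasDerivAt (fun u _ => antideriv T v hv u)]
  · simp
    ring
  · apply Continuous.intervalIntegrable
    fun_prop

lemma ker_eq (T v : ℝ) (hT : 0 ≤ T) (hv : v ≠ 0) :
    ∫ u in (-T)..T, ((T - |u| : ℝ) : ℂ) * Complex.exp (Complex.I * v * u) = (ker T v : ℂ) := by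
  have hc : ∀ a b : ℝ, IntervalIntegrable
      (fun u : ℝ => ((T - |u| : ℝ) : ℂ) * Complex.exp (Complex.I * v * u)) volume a b := by
    intro a b
    apply Continuous.intervalIntegrable
    fun_prop
  rw [← intervalIntegral.integral_add_adjacent_intervals (hc (-T) 0) (hc 0 T)]
  have h1 : ∫ u in (0 : ℝ)..T, ((T - |u| : ℝ) : ℂ) * Complex.exp (Complex.I * v * u)
      = ∫ u in (0 : ℝ)..T, ((T : ℂ) - u) * Complex.exp (Complex.I * v * u) := by
    apply intervalIntegral.integral_congr
    intro u hu
    rw [uIcc_of_le hT] at hu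
    simp only
    rw [abs_of_nonneg hu.1]
    push_cast
    ring
  have h2 : ∫ u in (-T)..0, ((T - |u| : ℝ) : ℂ) * Complex.exp (Complex.I * v * u)
      = ∫ u in (0 : ℝ)..T, ((T : ℂ) - u) * Complex.exp (Complex.I * (-v : ℝ) * u) := by
    have := intervalIntegral.integral_comp_neg (a := 0) (b := T)
      (fun u : ℝ => ((T - |u| : ℝ) : ℂ) * Complex.exp (Complex.I * v * u))
    rw [neg_zero] at this
    rw [← this]
    apply intervalIntegral.integral_congr
    intro u hu
    rw [uIcc_of_le hT] at hu
    simp only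
    rw [abs_neg, abs_of_nonneg hu.1]
    push_cast
    ring_nf
  rw [h1, h2, ker_eq_half T v hv, ker_eq_half T (-v) (neg_ne_zero.mpr hv)]
  have hv' : (v : ℂ) ≠ 0 := by exact_mod_cast hv
  unfold ker
  push_cast
  rw [Complex.cos]
  have e1 : Complex.exp (Complex.I * v * T) = Complex.exp (T * v * Complex.I) := by ring_nf
  have e2 : Complex.exp (Complex.I * -v * T) = Complex.exp (-(T * v) * Complex.I) := by ring_nf
  rw [e1, e2]
  have hI : (Complex.I) ^ 2 = -1 := Complex.I_sq
  field_simp
  rw [hI]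
  ring

section core

variable {B : ℝ → ℝ} {C A : ℝ} {F : ℂ → ℂ}

lemma integrable_laplace (hBm : Measurable B) (hB0 : ∀ x, 0 ≤ B x) (hBC : ∀ x, B x ≤ C) (A : ℝ)
    {e : ℝ} (he : 0 < e) :
    IntegrableOn (fun x : ℝ => ((B x - A : ℝ) : ℂ) * Complex.exp (-((e : ℂ) * x))) (Ioi 0) := by
  have h1 : IntegrableOn (fun x : ℝ => Real.exp (-e * x)) (Ioi 0) := exp_neg_integrableOn_Ioi 0 he
  have h2 : IntegrableOn (fun x : ℝ => (C + |A|) * Real.exp (-e * x)) (Ioi 0) := h1.const_mul _
  refine Integrable.mono' h2 ?_ (Eventually.of_forall fun x => ?_)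
  · apply Measurable.aestronglyMeasurable
    have : Measurable fun x : ℝ => ((B x - A : ℝ) : ℂ) :=
      Complex.measurable_ofReal.comp (hBm.sub_const A)
    apply this.mul
    fun_prop
  · rw [norm_mul, Complex.norm_real, Complex.norm_exp]
    have h3 : (-((e : ℂ) * x)).re = -e * x := by simp
    rw [h3]
    apply mul_le_mul_of_nonneg_right _ (Real.exp_pos _).le
    rw [Real.norm_eq_abs]
    calc |B x - A| ≤ |B x| + |A| := abs_sub _ _
      _ ≤ C + |A| := by rw [abs_of_nonneg (hB0 x)]; linarith [hBC x]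

lemma fubini (hBm : Measurable B) (hB0 : ∀ x, 0 ≤ B x) (hBC : ∀ x, B x ≤ C)
    (hFL : ∀ s : ℂ, 0 < s.re → F s = ∫ x in Ioi (0:ℝ), ((B x - A : ℝ) : ℂ) * Complex.exp (-(s * x)))
    {e : ℝ} (he : 0 < e) {T : ℝ} (hT : 0 ≤ T) (y : ℝ) :
    ∫ x in Ioi (0:ℝ), ((B x - A : ℝ) : ℂ) * Complex.exp (-((e : ℂ) * x)) * (ker T (y - x) : ℂ)
      = ∫ u in (-T)..T, ((T - |u| : ℝ) : ℂ) * Complex.exp (Complex.I * y * u) *
          F (e + Complex.I * u) := by
  have h1 : ∫ x in Ioi (0:ℝ), ((B x - A : ℝ) : ℂ) * Complex.exp (-((e : ℂ) * x)) *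
        (ker T (y - x) : ℂ)
      = ∫ x in Ioi (0:ℝ), ∫ u in (-T)..T, ((B x - A : ℝ) : ℂ) * Complex.exp (-((e : ℂ) * x)) *
        (((T - |u| : ℝ) : ℂ) * Complex.exp (Complex.I * (y - x : ℝ) * u)) := by
    apply integral_congr_ae
    apply ae_restrict_of_ae
    have : ∀ᵐ x : ℝ, x ≠ y := by
      rw [ae_iff]
      simp
    filter_upwards [this] with x hx
    rw [intervalIntegral.integral_const_mul]
    rw [ker_eq T (y - x) hT (sub_ne_zero.mpr (Ne.symm hx))]
  rw [h1]
  have hint : Integrable (Function.uncurry fun (x u : ℝ) =>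
      ((B x - A : ℝ) : ℂ) * Complex.exp (-((e : ℂ) * x)) *
        (((T - |u| : ℝ) : ℂ) * Complex.exp (Complex.I * (y - x : ℝ) * u)))
      ((volume.restrict (Ioi (0:ℝ))).prod (volume.restrict (Ioc (-T) T))) := by
    have hi1 := integrable_laplace hBm hB0 hBC A he
    have hi2 : IntegrableOn (fun u : ℝ => ((T - |u| : ℝ) : ℂ)) (Ioc (-T) T) := by
      apply Continuous.integrableOn_Ioc
      fun_prop
    have hi3 := hi1.mul_prod hi2
    have hi4 := hi3.mul_bdd (c := 1) (g := fun z : ℝ × ℝ =>
      Complex.exp (Complex.I * (y - z.1 : ℝ) * z.2)) (by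
        apply Continuous.aestronglyMeasurable
        fun_prop) (Eventually.of_forall fun z => by
        rw [Complex.norm_exp]
        have : (Complex.I * ((y - z.1 : ℝ) : ℂ) * (z.2 : ℂ)).re = 0 := by
          simp
        rw [this]
        simp)
    refine hi4.congr (Eventually.of_forall fun z => ?_)
    simp only [Function.uncurry]
    ring
  simp_rw [intervalIntegral.integral_of_le (show -T ≤ T by linarith)]
  rw [integral_integral_swap hint]
  apply integral_congr_ae
  refine Eventually.of_forall fun u => ?_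
  simp only
  rw [hFL (e + Complex.I * u) (by simp [he])]
  rw [← integral_const_mul]
  apply integral_congr_ae
  refine Eventually.of_forall fun x => ?_
  simp only
  have : Complex.exp (-((e + Complex.I * u) * (x : ℂ)))
      = Complex.exp (-((e : ℂ) * x)) * Complex.exp (-(Complex.I * u * x)) := by
    rw [← Complex.exp_add]
    congr 1
    ring
  rw [this]
  have h2 : Complex.exp (Complex.I * (y - x : ℝ) * u)
      = Complex.exp (Complex.I * y * u) * Complex.exp (-(Complex.I * u * x)) := by
    rw [← Complex.exp_add]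
    congr 1
    push_cast
    ring
  rw [h2]
  ring

/-- letting `e → 0` in `fubini`. -/
lemma fubini_zero (hBm : Measurable B) (hB0 : ∀ x, 0 ≤ B x) (hBC : ∀ x, B x ≤ C)
    (hF : ContinuousOn F {s | 0 ≤ s.re})
    (hFL : ∀ s : ℂ, 0 < s.re → F s = ∫ x in Ioi (0:ℝ), ((B x - A : ℝ) : ℂ) * Complex.exp (-(s * x)))
    {T : ℝ} (hT : 0 ≤ T) (y : ℝ) :
    ∫ x in Ioi (0:ℝ), ((B x - A : ℝ) : ℂ) * (ker T (y - x) : ℂ)
      = ∫ u in (-T)..T, ((T - |u| : ℝ) : ℂ) * Complex.exp (Complex.I * y * u) *
          F (Complex.I * u) := by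
  -- left side
  have hL : Tendsto (fun e : ℝ => ∫ x in Ioi (0:ℝ),
      ((B x - A : ℝ) : ℂ) * Complex.exp (-((e : ℂ) * x)) * (ker T (y - x) : ℂ)) (𝓝[>] 0)
      (𝓝 (∫ x in Ioi (0:ℝ), ((B x - A : ℝ) : ℂ) * (ker T (y - x) : ℂ))) := by
    apply tendsto_integral_filter_of_dominated_convergence
      (bound := fun x => (C + |A|) * ker T (y - x))
    · refine Eventually.of_forall fun e => ?_
      apply Measurable.aestronglyMeasurable
      have h1 : Measurable fun x : ℝ => ((B x - A : ℝ) : ℂ) :=
        Complex.measurable_ofReal.comp (hBm.sub_const A)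
      have h2 : Measurable fun x : ℝ => (ker T (y - x) : ℂ) :=
        Complex.measurable_ofReal.comp ((measurable_ker T).comp (by fun_prop))
      apply Measurable.mul _ h2
      apply h1.mul
      fun_prop
    · filter_upwards [self_mem_nhdsWithin] with e he
      filter_upwards [ae_restrict_mem measurableSet_Ioi] with x hx
      rw [norm_mul, norm_mul, Complex.norm_real, Complex.norm_exp, Complex.norm_real,
        Real.norm_of_nonneg (ker_nonneg T _)]
      apply mul_le_mul_of_nonneg_right _ (ker_nonneg T _)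
      have h3 : (-((e : ℂ) * x)).re = -(e * x) := by simp
      rw [h3]
      have h4 : Real.exp (-(e * x)) ≤ 1 := by
        rw [Real.exp_le_one_iff]
        have he' : 0 < e := he
        have hx' : 0 < x := hx
        have : 0 < e * x := by positivity
        linarith
      have h5 : ‖B x - A‖ ≤ C + |A| := by
        rw [Real.norm_eq_abs]
        calc |B x - A| ≤ |B x| + |A| := abs_sub _ _
          _ ≤ C + |A| := by rw [abs_of_nonneg (hB0 x)]; linarith [hBC x]
      calc ‖B x - A‖ * Real.exp (-(e * x)) ≤ ‖B x - A‖ * 1 := by gcongr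
        _ ≤ _ := by linarith
    · apply Integrable.integrableOn
      exact ((integrable_ker T).comp_sub_left y).const_mul _
    · refine Eventually.of_forall fun x => ?_
      apply Tendsto.mul_const
      have : Tendsto (fun e : ℝ => Complex.exp (-((e : ℂ) * x))) (𝓝[>] 0) (𝓝 (Complex.exp 0)) := by
        apply (Complex.continuous_exp.tendsto _).comp
        have : Tendsto (fun e : ℝ => (-((e : ℂ) * x))) (𝓝 0) (𝓝 (-(((0 : ℝ) : ℂ) * x))) := by
          apply Continuous.tendsto
          fun_prop
        simp only [Complex.ofReal_zero, zero_mul, neg_zero] at this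
        exact this.mono_left nhdsWithin_le_nhds
      have h2 := this.const_mul ((B x - A : ℝ) : ℂ)
      simpa using h2
  have hR : Tendsto (fun e : ℝ => ∫ u in (-T)..T,
      ((T - |u| : ℝ) : ℂ) * Complex.exp (Complex.I * y * u) * F (e + Complex.I * u)) (𝓝[>] 0)
      (𝓝 (∫ u in (-T)..T, ((T - |u| : ℝ) : ℂ) * Complex.exp (Complex.I * y * u) *
          F (Complex.I * u))) := by
    -- compact set
    let Kc : Set (ℝ × ℝ) := Icc 0 1 ×ˢ Icc (-T) T
    have hKc : IsCompact Kc := isCompact_Icc.prod isCompact_Icc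
    have hmaps : MapsTo (fun z : ℝ × ℝ => (z.1 : ℂ) + Complex.I * z.2) Kc {s : ℂ | 0 ≤ s.re} := by
      intro z hz
      simp only [mem_ofPred_eq, Complex.add_re, Complex.ofReal_re, Complex.mul_re, Complex.I_re,
        zero_mul, Complex.I_im, Complex.ofReal_im, mul_zero, sub_zero, add_zero]
      exact hz.1.1
    have hcF : ContinuousOn (fun z : ℝ × ℝ => F ((z.1 : ℂ) + Complex.I * z.2)) Kc :=
      hF.comp (by fun_prop) hmaps
    obtain ⟨M, hM⟩ := hKc.exists_bound_of_continuousOn hcF
    apply intervalIntegral.tendsto_integral_filter_of_dominated_convergence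
      (bound := fun _ => T * M)
    · filter_upwards [self_mem_nhdsWithin] with e he
      apply ContinuousOn.aestronglyMeasurable _ measurableSet_uIoc
      apply ContinuousOn.mul (by fun_prop)
      apply hF.comp (by fun_prop)
      intro u _
      have he' : 0 < e := he
      simp [he'.le]
    · have h1 : ∀ᶠ e : ℝ in 𝓝[>] 0, e ≤ 1 :=
        (nhdsWithin_le_nhds (s := Ioi 0)) (Iic_mem_nhds one_pos)
      filter_upwards [self_mem_nhdsWithin, h1] with e he he1
      refine Eventually.of_forall fun u hu => ?_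
      rw [uIoc_of_le (by linarith)] at hu
      have hz : ((e, u) : ℝ × ℝ) ∈ Kc := ⟨⟨le_of_lt he, he1⟩, ⟨hu.1.le, hu.2⟩⟩
      have h2 := hM (e, u) hz
      simp only at h2
      rw [norm_mul, norm_mul, Complex.norm_real, Complex.norm_exp]
      have h3 : (Complex.I * y * u).re = 0 := by simp
      rw [h3, Real.exp_zero, mul_one, Real.norm_eq_abs]
      have h4 : abs (T - abs u) ≤ T := by
        rw [abs_le]
        have h5 : |u| ≤ T := abs_le.mpr ⟨hu.1.le, hu.2⟩
        have := abs_nonneg u
        constructor <;> linarith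
      apply mul_le_mul h4 h2 (norm_nonneg _) hT
    · exact intervalIntegrable_const
    · refine Eventually.of_forall fun u hu => ?_
      apply Tendsto.const_mul
      have hc : ContinuousWithinAt F {s : ℂ | 0 ≤ s.re} (Complex.I * u) := by
        apply hF
        simp
      have ht : Tendsto (fun e : ℝ => (e : ℂ) + Complex.I * u) (𝓝[>] 0)
          (𝓝[{s : ℂ | 0 ≤ s.re}] (Complex.I * u)) := by
        apply tendsto_nhdsWithin_iff.mpr
        constructor
        · have : Tendsto (fun e : ℝ => (e : ℂ) + Complex.I * u) (𝓝 0)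
              (𝓝 (((0:ℝ) : ℂ) + Complex.I * u)) := by
            apply Continuous.tendsto
            fun_prop
          simp only [Complex.ofReal_zero, zero_add] at this
          exact this.mono_left nhdsWithin_le_nhds
        · filter_upwards [self_mem_nhdsWithin] with e he
          have he' : 0 < e := he
          simp [he'.le]
      exact hc.tendsto.comp ht
  refine tendsto_nhds_unique (hL.congr' ?_) hR
  filter_upwards [self_mem_nhdsWithin] with e he
  exact fubini hBm hB0 hBC hFL he hT y

/-- Riemann-Lebesgue. -/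
lemma riemann_lebesgue (F : ℂ → ℂ) {T : ℝ} (hT : 0 ≤ T) :
    Tendsto (fun y : ℝ => ∫ u in (-T)..T, ((T - |u| : ℝ) : ℂ) * Complex.exp (Complex.I * y * u) *
          F (Complex.I * u)) atTop (𝓝 0) := by
  let f : ℝ → ℂ := indicator (Ioc (-T) T) fun u => ((T - |u| : ℝ) : ℂ) * F (Complex.I * u)
  have h1 := Real.tendsto_integral_exp_smul_cocompact f
  have h2 : Tendsto (fun y : ℝ => -y / (2 * Real.pi)) atTop (cocompact ℝ) := by
    have : Tendsto (fun y : ℝ => -y / (2 * Real.pi)) atTop atBot := by
      apply Tendsto.atBot_div_const (by positivity)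
      exact tendsto_neg_atTop_atBot
    exact this.mono_right atBot_le_cocompact
  have h3 := h1.comp h2
  refine h3.congr fun y => ?_
  simp only [Function.comp_apply]
  rw [intervalIntegral.integral_of_le (by linarith), ← integral_indicator measurableSet_Ioc]
  apply integral_congr_ae
  refine Eventually.of_forall fun u => ?_
  simp only [f]
  by_cases hu : u ∈ Ioc (-T) T
  · rw [indicator_of_mem hu, indicator_of_mem hu]
    rw [Circle.smul_def, Real.fourierChar_apply, smul_eq_mul]
    have : (((2 * Real.pi * -(u * (-y / (2 * Real.pi))) : ℝ) : ℂ) * Complex.I)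
        = Complex.I * y * u := by
      have hpi : (Real.pi : ℂ) ≠ 0 := by exact_mod_cast Real.pi_ne_zero
      push_cast
      field_simp
    rw [this]
    ring
  · rw [indicator_of_notMem hu, indicator_of_notMem hu, smul_zero]

lemma tendsto_conv_sub (hBm : Measurable B) (hB0 : ∀ x, 0 ≤ B x) (hBC : ∀ x, B x ≤ C)
    (hF : ContinuousOn F {s | 0 ≤ s.re})
    (hFL : ∀ s : ℂ, 0 < s.re → F s = ∫ x in Ioi (0:ℝ), ((B x - A : ℝ) : ℂ) * Complex.exp (-(s * x)))
    {T : ℝ} (hT : 0 ≤ T) :
    Tendsto (fun y => ∫ x in Ioi (0:ℝ), (B x - A) * ker T (y - x)) atTop (𝓝 0) := by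
  have h1 := riemann_lebesgue F hT
  have h2 : Tendsto (fun y => ((∫ x in Ioi (0:ℝ), (B x - A) * ker T (y - x) : ℝ) : ℂ)) atTop
      (𝓝 ((0 : ℝ) : ℂ)) := by
    rw [Complex.ofReal_zero]
    refine h1.congr fun y => ?_
    rw [← fubini_zero hBm hB0 hBC hF hFL hT y, ← integral_complex_ofReal]
    push_cast
    rfl
  exact tendsto_ofReal_iff.mp h2

lemma tendsto_mass (T : ℝ) :
    Tendsto (fun y : ℝ => ∫ x in Ioi (0:ℝ), ker T (y - x)) atTop (𝓝 (mass T)) := by
  have h1 : ∀ y : ℝ, ∫ x in Ioi (0:ℝ), ker T (y - x) = ∫ v, (Iio y).indicator (ker T) v := by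
    intro y
    rw [← integral_indicator measurableSet_Ioi]
    rw [← integral_sub_left_eq_self _ volume y]
    apply integral_congr_ae
    refine Eventually.of_forall fun v => ?_
    simp only [indicator, mem_Ioi, mem_Iio, sub_sub_cancel]
    by_cases h : v < y
    · rw [if_pos (by linarith), if_pos h]
    · rw [if_neg (by linarith), if_neg h]
  simp_rw [h1]
  apply tendsto_integral_filter_of_dominated_convergence (bound := ker T)
  · exact Eventually.of_forall fun y =>
      ((measurable_ker T).indicator measurableSet_Iio).aestronglyMeasurable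
  · refine Eventually.of_forall fun y => Eventually.of_forall fun v => ?_
    rw [Real.norm_of_nonneg (indicator_nonneg (fun v _ => ker_nonneg T v) v)]
    exact indicator_le_self' (fun v _ => ker_nonneg T v) v
  · exact integrable_ker T
  · refine Eventually.of_forall fun v => ?_
    apply tendsto_const_nhds.congr'
    filter_upwards [eventually_gt_atTop v] with y hy
    rw [indicator_of_mem]
    exact hy

lemma integrable_conv (hBm : Measurable B) (hB0 : ∀ x, 0 ≤ B x) (hBC : ∀ x, B x ≤ C) (T y : ℝ) :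
    Integrable (fun x => B x * ker T (y - x)) := by
  have h1 : Integrable (fun x => ker T (y - x)) := (integrable_ker T).comp_sub_left y
  refine h1.bdd_mul (c := C) hBm.aestronglyMeasurable (Eventually.of_forall fun x => ?_)
  rw [Real.norm_of_nonneg (hB0 x)]
  exact hBC x

lemma tendsto_conv (hBm : Measurable B) (hB0 : ∀ x, 0 ≤ B x) (hBC : ∀ x, B x ≤ C)
    (hF : ContinuousOn F {s | 0 ≤ s.re})
    (hFL : ∀ s : ℂ, 0 < s.re → F s = ∫ x in Ioi (0:ℝ), ((B x - A : ℝ) : ℂ) * Complex.exp (-(s * x)))
    {T : ℝ} (hT : 0 ≤ T) :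
    Tendsto (fun y => ∫ x in Ioi (0:ℝ), B x * ker T (y - x)) atTop (𝓝 (A * mass T)) := by
  have h1 := tendsto_conv_sub hBm hB0 hBC hF hFL hT
  have h2 := (tendsto_mass T).const_mul A
  have h3 := h1.add h2
  rw [zero_add] at h3
  refine h3.congr fun y => ?_
  rw [← integral_const_mul, ← integral_add]
  · apply integral_congr_ae
    refine Eventually.of_forall fun x => ?_
    simp only
    ring
  · have h4 := (integrable_conv hBm hB0 hBC T y).sub
      (((integrable_ker T).comp_sub_left y).const_mul A)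
    refine (h4.congr (Eventually.of_forall fun x => ?_)).integrableOn
    simp only [Pi.sub_apply]
    ring
  · exact (((integrable_ker T).comp_sub_left y).const_mul A).integrableOn

end core

section tauber

variable {B : ℝ → ℝ} {C A : ℝ} {F : ℂ → ℂ}

lemma conv_ge (hBm : Measurable B) (hB0 : ∀ x, 0 ≤ B x) (hBC : ∀ x, B x ≤ C)
    (hmono : ∀ x y, x ≤ y → B x * Real.exp x ≤ B y * Real.exp y)
    (T : ℝ) {a y : ℝ} (ha : 0 < a) (hy : a ≤ y) :
    B (y - a) * Real.exp (-(2 * a)) * (mass T - 4 * (1 + 1 / a ^ 2) * Real.pi)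
      ≤ ∫ x in Ioi (0:ℝ), B x * ker T (y - x) := by
  have hms : MeasurableSet {v : ℝ | a ≤ |v|} := measurableSet_le measurable_const (by fun_prop)
  have hi : Integrable (fun x => B x * ker T (y - x)) := integrable_conv hBm hB0 hBC T y
  have h1 : ∫ x in {x : ℝ | |y - x| < a}, B x * ker T (y - x)
      ≤ ∫ x in Ioi (0:ℝ), B x * ker T (y - x) := by
    apply setIntegral_mono_set hi.integrableOn
    · exact Eventually.of_forall fun x => mul_nonneg (hB0 x) (ker_nonneg T _)
    · apply LE.le.eventuallyLE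
      intro x hx
      have hx' : |y - x| < a := hx
      have := (abs_lt.mp hx').2
      show 0 < x
      linarith
  have hms2 : MeasurableSet {x : ℝ | |y - x| < a} := measurableSet_lt (by fun_prop) measurable_const
  have h2 : ∫ x in {x : ℝ | |y - x| < a}, (B (y - a) * Real.exp (-(2 * a))) * ker T (y - x)
      ≤ ∫ x in {x : ℝ | |y - x| < a}, B x * ker T (y - x) := by
    apply setIntegral_mono_on _ hi.integrableOn hms2
    · intro x hx
      have hx' : |y - x| < a := hx
      have hx1 := (abs_lt.mp hx').1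
      have hx2 := (abs_lt.mp hx').2
      apply mul_le_mul_of_nonneg_right _ (ker_nonneg T _)
      have h3 := hmono (y - a) x (by linarith)
      have h4 : B (y - a) * Real.exp (y - a) * Real.exp (-x) ≤ B x := by
        calc B (y - a) * Real.exp (y - a) * Real.exp (-x)
            ≤ B x * Real.exp x * Real.exp (-x) := by gcongr
          _ = B x := by rw [mul_assoc, ← Real.exp_add]; simp
      refine le_trans ?_ h4
      rw [mul_assoc, ← Real.exp_add]
      apply mul_le_mul_of_nonneg_left _ (hB0 _)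
      apply Real.exp_le_exp.mpr
      linarith
    · exact (((integrable_ker T).comp_sub_left y).const_mul _).integrableOn
  refine le_trans ?_ (h2.trans h1)
  rw [integral_const_mul]
  apply mul_le_mul_of_nonneg_left _ (mul_nonneg (hB0 _) (Real.exp_pos _).le)
  have h5 : ∫ x in {x : ℝ | |y - x| < a}, ker T (y - x) = ∫ v in {v : ℝ | |v| < a}, ker T v := by
    rw [← integral_indicator hms2, ← integral_indicator (measurableSet_lt (by fun_prop)
      measurable_const)]
    rw [← integral_sub_left_eq_self _ volume y]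
    apply integral_congr_ae
    refine Eventually.of_forall fun v => ?_
    simp only [indicator, mem_ofPred_eq, sub_sub_cancel]
  rw [h5]
  have h6 : {v : ℝ | |v| < a} = {v : ℝ | a ≤ |v|}ᶜ := by
    ext v
    simp
  have h7 := integral_add_compl hms (integrable_ker T)
  rw [h6]
  have h8 := tail_le T ha
  unfold mass
  linarith

lemma conv_le (hBm : Measurable B) (hB0 : ∀ x, 0 ≤ B x) (hBC : ∀ x, B x ≤ C) (hC : 0 ≤ C)
    (hmono : ∀ x y, x ≤ y → B x * Real.exp x ≤ B y * Real.exp y)
    (T : ℝ) {a y : ℝ} (ha : 0 < a) :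
    ∫ x in Ioi (0:ℝ), B x * ker T (y - x) ≤
      B (y + a) * Real.exp (2 * a) * mass T + C * (4 * (1 + 1 / a ^ 2) * Real.pi) := by
  have hms : MeasurableSet {v : ℝ | a ≤ |v|} := measurableSet_le measurable_const (by fun_prop)
  have hms2 : MeasurableSet {x : ℝ | a ≤ |y - x|} := measurableSet_le measurable_const (by fun_prop)
  have hi : Integrable (fun x => B x * ker T (y - x)) := integrable_conv hBm hB0 hBC T y
  have hik : Integrable (fun x => ker T (y - x)) := (integrable_ker T).comp_sub_left y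
  have h1 : ∫ x in Ioi (0:ℝ), B x * ker T (y - x) ≤ ∫ x, B x * ker T (y - x) :=
    setIntegral_le_integral hi (Eventually.of_forall fun x => mul_nonneg (hB0 x) (ker_nonneg T _))
  have h2 := integral_add_compl hms2 hi
  have h3 : ∫ x in {x : ℝ | a ≤ |y - x|}, B x * ker T (y - x)
      ≤ C * (4 * (1 + 1 / a ^ 2) * Real.pi) := by
    calc ∫ x in {x : ℝ | a ≤ |y - x|}, B x * ker T (y - x)
        ≤ ∫ x in {x : ℝ | a ≤ |y - x|}, C * ker T (y - x) := by
          apply setIntegral_mono_on hi.integrableOn (hik.const_mul C).integrableOn hms2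
          intro x _
          exact mul_le_mul_of_nonneg_right (hBC x) (ker_nonneg T _)
      _ = C * ∫ x in {x : ℝ | a ≤ |y - x|}, ker T (y - x) := by rw [integral_const_mul]
      _ = C * ∫ v in {v : ℝ | a ≤ |v|}, ker T v := by
          congr 1
          rw [← integral_indicator hms2, ← integral_indicator hms]
          rw [← integral_sub_left_eq_self _ volume y]
          apply integral_congr_ae
          refine Eventually.of_forall fun v => ?_
          simp only [indicator, mem_ofPred_eq, sub_sub_cancel]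
      _ ≤ _ := by gcongr; exact tail_le T ha
  have h4 : ∫ x in {x : ℝ | a ≤ |y - x|}ᶜ, B x * ker T (y - x)
      ≤ B (y + a) * Real.exp (2 * a) * mass T := by
    calc ∫ x in {x : ℝ | a ≤ |y - x|}ᶜ, B x * ker T (y - x)
        ≤ ∫ x in {x : ℝ | a ≤ |y - x|}ᶜ, (B (y + a) * Real.exp (2 * a)) * ker T (y - x) := by
          apply setIntegral_mono_on hi.integrableOn (hik.const_mul _).integrableOn hms2.compl
          intro x hx
          have hx' : |y - x| < a := by simpa using hx
          have hx1 := (abs_lt.mp hx').1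
          have hx2 := (abs_lt.mp hx').2
          apply mul_le_mul_of_nonneg_right _ (ker_nonneg T _)
          have h3 := hmono x (y + a) (by linarith)
          have h4 : B x ≤ B (y + a) * Real.exp (y + a) * Real.exp (-x) := by
            calc B x = B x * Real.exp x * Real.exp (-x) := by
                  rw [mul_assoc, ← Real.exp_add]; simp
              _ ≤ _ := by gcongr
          refine h4.trans ?_
          rw [mul_assoc, ← Real.exp_add]
          apply mul_le_mul_of_nonneg_left _ (hB0 _)
          apply Real.exp_le_exp.mpr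
          linarith
      _ ≤ ∫ x, (B (y + a) * Real.exp (2 * a)) * ker T (y - x) :=
          setIntegral_le_integral (hik.const_mul _) (Eventually.of_forall fun x =>
            mul_nonneg (mul_nonneg (hB0 _) (Real.exp_pos _).le) (ker_nonneg T _))
      _ = _ := by
          rw [integral_const_mul]
          congr 1
          exact integral_sub_left_eq_self (ker T) volume y
  linarith

/-- **Wiener-Ikehara, bounded form.** -/
theorem tauber (hBm : Measurable B) (hB0 : ∀ x, 0 ≤ B x) (hBC : ∀ x, B x ≤ C)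
    (hmono : ∀ x y, x ≤ y → B x * Real.exp x ≤ B y * Real.exp y)
    (hF : ContinuousOn F {s | 0 ≤ s.re})
    (hFL : ∀ s : ℂ, 0 < s.re → F s = ∫ x in Ioi (0:ℝ), ((B x - A : ℝ) : ℂ) * Complex.exp (-(s * x))) :
    Tendsto B atTop (𝓝 A) := by
  have hC : 0 ≤ C := (hB0 0).trans (hBC 0)
  -- for every δ : eventual bounds
  have key : ∀ δ : ℝ, 0 < δ → δ < 1 →
      (∀ᶠ y in atTop, B y * (1 - δ) ≤ (A + δ) * (1 + δ)) ∧
      (∀ᶠ y in atTop, A - δ - C * δ ≤ B y * (1 + δ)) := by
    intro δ hδ hδ1
    set a : ℝ := Real.log (1 + δ) / 2 with ha_def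
    have ha : 0 < a := by
      have := Real.log_pos (show (1 : ℝ) < 1 + δ by linarith)
      positivity
    have hea : Real.exp (2 * a) = 1 + δ := by
      rw [ha_def, mul_div_cancel₀ _ (two_ne_zero), Real.exp_log (by linarith)]
    have hea' : Real.exp (-(2 * a)) = (1 + δ)⁻¹ := by
      rw [Real.exp_neg, hea]
    set M : ℝ := 4 * (1 + 1 / a ^ 2) * Real.pi with hM_def
    have hM : 0 < M := by positivity
    -- choose T
    obtain ⟨T, hT0, hT⟩ : ∃ T : ℝ, 0 < T ∧ M ≤ δ * mass T := by
      refine ⟨M * Real.pi ^ 2 / (4 * δ), by positivity, ?_⟩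
      have h1 := mass_ge (T := M * Real.pi ^ 2 / (4 * δ)) (by positivity)
      calc M = δ * (4 / Real.pi ^ 2 * (M * Real.pi ^ 2 / (4 * δ))) := by field_simp
        _ ≤ _ := by gcongr
    have hmass : 0 < mass T := by
      have : 0 < δ * mass T := lt_of_lt_of_le hM hT
      exact (pos_iff_pos_of_mul_pos this).mp hδ
    have hconv := tendsto_conv hBm hB0 hBC hF hFL hT0.le
    constructor
    · have h1 : ∀ᶠ y in atTop, ∫ x in Ioi (0:ℝ), B x * ker T (y - x) < (A + δ) * mass T := by
        apply hconv.eventually_lt_const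
        nlinarith
      have h2 : ∀ᶠ y : ℝ in atTop, ∫ x in Ioi (0:ℝ), B x * ker T ((y + a) - x) < (A + δ) * mass T :=
        (tendsto_atTop_add_const_right _ a tendsto_id).eventually h1
      filter_upwards [h2, eventually_ge_atTop 0] with y hy hy0
      have h3 := conv_ge hBm hB0 hBC hmono T (a := a) (y := y + a) ha (by linarith)
      rw [add_sub_cancel_right, hea', ← hM_def] at h3
      have h4 : B y * (1 + δ)⁻¹ * (mass T - M) ≤ (A + δ) * mass T := h3.trans hy.le
      have h5 : B y * (1 + δ)⁻¹ * ((1 - δ) * mass T) ≤ B y * (1 + δ)⁻¹ * (mass T - M) := by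
        apply mul_le_mul_of_nonneg_left _ (mul_nonneg (hB0 y) (by positivity))
        linarith
      have h6 : B y * (1 + δ)⁻¹ * (1 - δ) * mass T ≤ (A + δ) * mass T := by
        calc _ = B y * (1 + δ)⁻¹ * ((1 - δ) * mass T) := by ring
          _ ≤ _ := h5.trans h4
      have h7 : B y * (1 + δ)⁻¹ * (1 - δ) ≤ A + δ := le_of_mul_le_mul_right h6 hmass
      calc B y * (1 - δ) = (B y * (1 + δ)⁻¹ * (1 - δ)) * (1 + δ) := by field_simp
        _ ≤ _ := by gcongr
    · have h1 : ∀ᶠ y in atTop, (A - δ) * mass T < ∫ x in Ioi (0:ℝ), B x * ker T (y - x) := by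
        apply hconv.eventually_const_lt
        nlinarith
      have h2 : ∀ᶠ y : ℝ in atTop, (A - δ) * mass T < ∫ x in Ioi (0:ℝ), B x * ker T ((y - a) - x) :=
        (tendsto_atTop_add_const_right _ (-a) tendsto_id).eventually h1
      filter_upwards [h2] with y hy
      have h3 := conv_le hBm hB0 hBC hC hmono T (a := a) (y := y - a) ha
      rw [sub_add_cancel, hea, ← hM_def] at h3
      have h4 : (A - δ) * mass T ≤ (B y * (1 + δ) + C * δ) * mass T := by
        calc (A - δ) * mass T ≤ _ := hy.le.trans h3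
          _ ≤ B y * (1 + δ) * mass T + C * (δ * mass T) := by gcongr
          _ = _ := by ring
      have h5 := le_of_mul_le_mul_right h4 hmass
      linarith
  -- conclusion
  rw [tendsto_order]
  constructor
  · intro b hb
    have h1 : Tendsto (fun δ : ℝ => (A - δ - C * δ) - b * (1 + δ)) (𝓝[>] 0)
        (𝓝 ((A - 0 - C * 0) - b * (1 + 0))) :=
      (Continuous.tendsto (by fun_prop) 0).mono_left nhdsWithin_le_nhds
    have h2 : ∀ᶠ δ : ℝ in 𝓝[>] 0, 0 < (A - δ - C * δ) - b * (1 + δ) := by
      apply h1.eventually_const_lt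
      simp
      linarith
    have h3 : ∀ᶠ δ : ℝ in 𝓝[>] 0, δ < 1 := (nhdsWithin_le_nhds (s := Ioi 0)) (Iio_mem_nhds one_pos)
    obtain ⟨δ, hδ1, hδ2, hδ3⟩ := (h2.and (h3.and self_mem_nhdsWithin)).exists
    have hδ3' : 0 < δ := hδ3
    filter_upwards [(key δ hδ3' hδ2).2] with y hy
    have h4 : b * (1 + δ) < B y * (1 + δ) := by linarith
    exact lt_of_mul_lt_mul_right h4 (by linarith)
  · intro b hb
    have h1 : Tendsto (fun δ : ℝ => b * (1 - δ) - (A + δ) * (1 + δ)) (𝓝[>] 0)
        (𝓝 (b * (1 - 0) - (A + 0) * (1 + 0))) :=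
      (Continuous.tendsto (by fun_prop) 0).mono_left nhdsWithin_le_nhds
    have h2 : ∀ᶠ δ : ℝ in 𝓝[>] 0, 0 < b * (1 - δ) - (A + δ) * (1 + δ) := by
      apply h1.eventually_const_lt
      simp
      linarith
    have h3 : ∀ᶠ δ : ℝ in 𝓝[>] 0, δ < 1 := (nhdsWithin_le_nhds (s := Ioi 0)) (Iio_mem_nhds one_pos)
    obtain ⟨δ, hδ1, hδ2, hδ3⟩ := (h2.and (h3.and self_mem_nhdsWithin)).exists
    have hδ3' : 0 < δ := hδ3
    filter_upwards [(key δ hδ3' hδ2).1] with y hy
    have h4 : B y * (1 - δ) < b * (1 - δ) := by linarith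
    exact lt_of_mul_lt_mul_right h4 (by linarith)

end tauber

section dirichlet

/-- **Wiener-Ikehara** for Dirichlet series with nonnegative coefficients and a priori
Chebyshev bound for the partial sums. -/
theorem wiener_ikehara (f : ℕ → ℝ) (hf : ∀ n, 0 ≤ f n) {C : ℝ}
    (hC : ∀ t : ℝ, 0 ≤ t → ∑ k ∈ Finset.Icc 1 ⌊t⌋₊, f k ≤ C * t) (A : ℝ) (G : ℂ → ℂ)
    (hG : ContinuousOn G {s | 1 ≤ s.re})
    (hG' : ∀ s : ℂ, 1 < s.re → G s = LSeries (fun n => (f n : ℂ)) s - A / (s - 1)) :
    Tendsto (fun t : ℝ => (∑ k ∈ Finset.Icc 1 ⌊t⌋₊, f k) / t) atTop (𝓝 A) := by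
  set S : ℝ → ℝ := fun t => ∑ k ∈ Finset.Icc 1 ⌊t⌋₊, f k with hS
  have hS0 : ∀ t, 0 ≤ S t := fun t => Finset.sum_nonneg fun k _ => hf k
  have hSmono : Monotone S := by
    intro a b hab
    apply Finset.sum_le_sum_of_subset_of_nonneg
    · exact Finset.Icc_subset_Icc le_rfl (Nat.floor_mono hab)
    · exact fun k _ _ => hf k
  set B : ℝ → ℝ := fun x => S (Real.exp x) * Real.exp (-x) with hB
  have hBm : Measurable B := by
    apply Measurable.mul
    · exact hSmono.measurable.comp Real.measurable_exp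
    · fun_prop
  have hB0 : ∀ x, 0 ≤ B x := fun x => mul_nonneg (hS0 _) (Real.exp_pos _).le
  have hBC : ∀ x, B x ≤ C := by
    intro x
    have h1 := hC (Real.exp x) (Real.exp_pos x).le
    calc B x ≤ (C * Real.exp x) * Real.exp (-x) := by
          simp only [hB]; gcongr
      _ = C := by rw [mul_assoc, ← Real.exp_add]; simp
  have hmono : ∀ x y, x ≤ y → B x * Real.exp x ≤ B y * Real.exp y := by
    intro x y hxy
    simp only [hB]
    rw [mul_assoc, mul_assoc, ← Real.exp_add, ← Real.exp_add]
    simp only [neg_add_cancel, Real.exp_zero, mul_one]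
    exact hSmono (Real.exp_le_exp.mpr hxy)
  let F : ℂ → ℂ := fun s => (G (s + 1) - A) / (s + 1)
  have hF : ContinuousOn F {s | 0 ≤ s.re} := by
    apply ContinuousOn.div
    · apply ContinuousOn.sub _ continuousOn_const
      apply hG.comp (by fun_prop)
      intro s hs
      have hs' : 0 ≤ s.re := hs
      show 1 ≤ (s + 1).re
      simp [hs']
    · fun_prop
    · intro s hs h0
      have hs' : 0 ≤ s.re := hs
      have : (s + 1).re = 0 := by rw [h0]; simp
      simp at this
      linarith
  have hO : (fun n : ℕ => ∑ k ∈ Finset.Icc 1 n, f k) =O[atTop] fun n : ℕ => (n : ℝ) ^ (1 : ℝ) := by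
    apply Asymptotics.IsBigO.of_bound C
    refine Eventually.of_forall fun n => ?_
    have h1 := hC n (Nat.cast_nonneg n)
    rw [Nat.floor_natCast] at h1
    rw [Real.norm_of_nonneg (Finset.sum_nonneg fun k _ => hf k), Real.rpow_one,
      Real.norm_of_nonneg (Nat.cast_nonneg n)]
    exact h1
  have hlap : ∀ s : ℂ, 0 < s.re → LSeries (fun n => (f n : ℂ)) (s + 1)
      = (s + 1) * ∫ x in Ioi (0:ℝ), (B x : ℂ) * Complex.exp (-(s * x)) := by
    intro s hs
    have h1 := LSeries_eq_mul_integral_of_nonneg f zero_le_one (s := s + 1) (by simpa using hs) hO hf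
    rw [h1]
    congr 1
    have himg : Real.exp '' (Ioi 0) = Ioi 1 := by
      rw [← Real.exp_zero]
      ext z
      simp only [mem_image, mem_Ioi]
      constructor
      · rintro ⟨x, hx, rfl⟩
        exact Real.exp_lt_exp.mpr hx
      · intro hz
        have hz0 : 0 < z := lt_trans (Real.exp_pos _) hz
        refine ⟨Real.log z, ?_, Real.exp_log hz0⟩
        rw [← Real.log_exp 0]
        exact Real.log_lt_log (Real.exp_pos _) hz
    rw [← himg]
    rw [integral_image_eq_integral_abs_deriv_smul measurableSet_Ioi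
      (fun x _ => (Real.hasDerivAt_exp x).hasDerivWithinAt) Real.exp_injective.injOn]
    apply integral_congr_ae
    refine Eventually.of_forall fun x => ?_
    simp only [hB, hS]
    rw [abs_of_pos (Real.exp_pos x)]
    have e1 : ((Real.exp x : ℝ) : ℂ) ^ (-(s + 1 + 1)) = Complex.exp (-(s * x)) *
        Complex.exp (-x) * Complex.exp (-x) := by
      rw [Complex.cpow_def_of_ne_zero (by exact_mod_cast (Real.exp_pos x).ne')]
      rw [← Complex.ofReal_log (Real.exp_pos x).le, Real.log_exp, ← Complex.exp_add,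
        ← Complex.exp_add]
      congr 1
      ring
    rw [e1]
    rw [Complex.real_smul]
    push_cast
    have e2 : Complex.exp x * Complex.exp (-x) = 1 := by
      rw [← Complex.exp_add]; simp
    calc _ = (Complex.exp x * Complex.exp (-x)) * ((∑ k ∈ Finset.Icc 1 ⌊Real.exp x⌋₊, (f k : ℂ)) *
          Complex.exp (-x) * Complex.exp (-(s * x))) := by ring
      _ = _ := by rw [e2, one_mul]
  have hFL : ∀ s : ℂ, 0 < s.re →
      F s = ∫ x in Ioi (0:ℝ), ((B x - A : ℝ) : ℂ) * Complex.exp (-(s * x)) := by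
    intro s hs
    have hs0 : s ≠ 0 := by rintro rfl; simp at hs
    have hs1 : s + 1 ≠ 0 := by
      intro h0
      have : (s + 1).re = 0 := by rw [h0]; simp
      simp at this
      linarith
    have hi : ∀ a : ℝ, 0 ≤ a → IntegrableOn (fun x : ℝ => ((0 : ℝ) - a : ℝ) * Real.exp (-s.re * x))
        (Ioi 0) := by
      intro a _
      exact (exp_neg_integrableOn_Ioi 0 hs).const_mul _
    have hnorm : ∀ x : ℝ, ‖Complex.exp (-(s * x))‖ = Real.exp (-s.re * x) := by
      intro x
      rw [Complex.norm_exp]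
      congr 1
      simp
    have hi1 : IntegrableOn (fun x : ℝ => Complex.exp (-(s * x))) (Ioi 0) := by
      refine Integrable.mono' (exp_neg_integrableOn_Ioi 0 hs) ?_ (Eventually.of_forall fun x => ?_)
      · apply Continuous.aestronglyMeasurable
        fun_prop
      · rw [hnorm]
    have hi2 : IntegrableOn (fun x : ℝ => (B x : ℂ) * Complex.exp (-(s * x))) (Ioi 0) := by
      apply hi1.bdd_mul (c := C)
      · exact (Complex.measurable_ofReal.comp hBm).aestronglyMeasurable
      · refine Eventually.of_forall fun x => ?_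
        rw [Complex.norm_real, Real.norm_of_nonneg (hB0 x)]
        exact hBC x
    have e1 : ∫ x in Ioi (0:ℝ), Complex.exp (-(s * x)) = 1 / s := by
      have h := integral_exp_mul_complex_Ioi (a := -s) (by simpa using hs) 0
      have h2 : ∀ x : ℝ, Complex.exp (-s * x) = Complex.exp (-(s * x)) := by
        intro x; ring_nf
      simp_rw [h2] at h
      rw [h]
      simp
    have e2 : ∫ x in Ioi (0:ℝ), ((B x - A : ℝ) : ℂ) * Complex.exp (-(s * x))
        = (∫ x in Ioi (0:ℝ), (B x : ℂ) * Complex.exp (-(s * x))) - A * (1 / s) := by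
      rw [← e1, ← integral_const_mul, ← integral_sub hi2 (hi1.const_mul _)]
      apply integral_congr_ae
      refine Eventually.of_forall fun x => ?_
      simp only
      push_cast
      ring
    rw [e2]
    have e3 := hlap s hs
    have e4 := hG' (s + 1) (by simpa using hs)
    simp only [F]
    rw [e4, e3, add_sub_cancel_right]
    field_simp
    ring
  have hlim := tauber hBm hB0 hBC hmono hF hFL
  have h2 := hlim.comp Real.tendsto_log_atTop
  refine h2.congr' ?_
  filter_upwards [eventually_gt_atTop 0] with t ht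
  simp only [Function.comp_apply, hB]
  rw [Real.exp_log ht, Real.exp_neg, Real.exp_log ht, div_eq_mul_inv]

open ArithmeticFunction

/-- **Prime number theorem in arithmetic progressions**, von Mangoldt form. -/
theorem pnt_residueClass {q : ℕ} [NeZero q] {a : ZMod q} (ha : IsUnit a) :
    Tendsto (fun t : ℝ => (∑ k ∈ Finset.Icc 1 ⌊t⌋₊, vonMangoldt.residueClass a k) / t) atTop
      (𝓝 ((q.totient : ℝ)⁻¹)) := by
  refine wiener_ikehara (vonMangoldt.residueClass a) (vonMangoldt.residueClass_nonneg a)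
    (C := Real.log 4 + 4) ?_ _ (vonMangoldt.LFunctionResidueClassAux a)
    (vonMangoldt.continuousOn_LFunctionResidueClassAux a) ?_
  · intro t ht
    refine le_trans (Finset.sum_le_sum fun k _ => vonMangoldt.residueClass_le a k) ?_
    have := Chebyshev.psi_le_const_mul_self ht
    rw [Chebyshev.psi_eq_sum_Icc] at this
    refine le_trans ?_ this
    apply Finset.sum_le_sum_of_subset_of_nonneg
    · exact Finset.Icc_subset_Icc (Nat.zero_le 1) le_rfl
    · exact fun k _ _ => vonMangoldt_nonneg
  · intro s hs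
    rw [vonMangoldt.eqOn_LFunctionResidueClassAux ha hs]
    push_cast
    rfl

/-- **Prime number theorem**, `ψ` form. -/
theorem psi_div_tendsto : Tendsto (fun t : ℝ => Chebyshev.psi t / t) atTop (𝓝 1) := by
  have h := pnt_residueClass (q := 1) (a := 1) isUnit_one
  simp only [Nat.totient_one, Nat.cast_one, inv_one] at h
  refine h.congr fun t => ?_
  congr 1
  rw [Chebyshev.psi_eq_sum_Icc]
  have h0 : Finset.Icc 0 ⌊t⌋₊ = insert 0 (Finset.Icc 1 ⌊t⌋₊) := by
    ext k
    simp only [Finset.mem_Icc, Finset.mem_insert]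
    omega
  rw [h0, Finset.sum_insert (by simp)]
  rw [ArithmeticFunction.map_zero, zero_add]
  apply Finset.sum_congr rfl
  intro k _
  simp only [vonMangoldt.residueClass]
  rw [Set.indicator_of_mem]
  exact Subsingleton.elim _ _

/-- **Prime number theorem**, `θ` form. -/
theorem theta_div_tendsto : Tendsto (fun t : ℝ => Chebyshev.theta t / t) atTop (𝓝 1) := by
  have h1 := psi_div_tendsto
  have h2 : Tendsto (fun t : ℝ => (Chebyshev.psi t - Chebyshev.theta t) / t) atTop (𝓝 0) := by
    have h3 := Chebyshev.isBigO_psi_sub_theta_sqrt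
    have h4 : (fun t : ℝ => Real.sqrt t) =o[atTop] fun t : ℝ => t := by
      have h6 : Tendsto (fun t : ℝ => (Real.sqrt t)⁻¹) atTop (𝓝 0) :=
        Real.tendsto_sqrt_atTop.inv_tendsto_atTop
      rw [Asymptotics.isLittleO_iff_tendsto' (by
        filter_upwards [eventually_gt_atTop 0] with t ht h0
        exact absurd h0 ht.ne')]
      refine h6.congr' ?_
      filter_upwards [eventually_gt_atTop 0] with t ht
      rw [Real.sqrt_div_self]
    have h5 := h3.trans_isLittleO h4
    exact h5.tendsto_div_nhds_zero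
  have h3 := h1.sub h2
  rw [sub_zero] at h3
  refine h3.congr fun t => ?_
  ring

/-- **Prime number theorem**, `π(x) log x / x → 1`. -/
theorem primeCounting_tendsto :
    Tendsto (fun t : ℝ => (Nat.primeCounting ⌊t⌋₊ : ℝ) * Real.log t / t) atTop (𝓝 1) := by
  have h1 := theta_div_tendsto
  have h2 := Chebyshev.integral_theta_div_log_sq_isLittleO.tendsto_div_nhds_zero
  have h3 := h1.add h2
  rw [add_zero] at h3
  refine h3.congr' ?_
  filter_upwards [eventually_ge_atTop 2] with t ht
  rw [Chebyshev.primeCounting_eq_theta_div_log_add_integral ht]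
  have ht0 : t ≠ 0 := by positivity
  have hl : Real.log t ≠ 0 := by
    have := Real.log_pos (show (1:ℝ) < t by linarith)
    exact this.ne'
  field_simp

/-- **Prime number theorem**, `θ` form with explicit `ε`. -/
theorem abs_theta_sub_le {ε : ℝ} (hε : 0 < ε) :
    ∃ Y : ℝ, 0 < Y ∧ ∀ y, Y ≤ y → |Chebyshev.theta y - y| ≤ ε * y := by
  have h := theta_div_tendsto
  rw [Metric.tendsto_atTop] at h
  obtain ⟨Y, hY⟩ := h ε hε
  refine ⟨max Y 1, by positivity, fun y hy => ?_⟩
  have h1 := hY y ((le_max_left _ _).trans hy)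
  have hy0 : 0 < y := lt_of_lt_of_le (by positivity) hy
  rw [Real.dist_eq] at h1
  have h2 : Chebyshev.theta y - y = (Chebyshev.theta y / y - 1) * y := by
    field_simp
  rw [h2, abs_mul, abs_of_pos hy0]
  gcongr

/-- **Prime number theorem**, `π` form with explicit `ε`. -/
theorem abs_primeCounting_sub_le {ε : ℝ} (hε : 0 < ε) :
    ∃ Y : ℝ, 1 < Y ∧ ∀ y, Y ≤ y →
      |(Nat.primeCounting ⌊y⌋₊ : ℝ) - y / Real.log y| ≤ ε * (y / Real.log y) := by
  have h := primeCounting_tendsto
  rw [Metric.tendsto_atTop] at h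
  obtain ⟨Y, hY⟩ := h ε hε
  refine ⟨max Y 2, lt_of_lt_of_le one_lt_two (le_max_right _ _), fun y hy => ?_⟩
  have h1 := hY y ((le_max_left _ _).trans hy)
  have hy2 : 2 ≤ y := (le_max_right _ _).trans hy
  have hl : 0 < Real.log y := Real.log_pos (by linarith)
  have hy0 : 0 < y := by linarith
  rw [Real.dist_eq] at h1
  have h2 : (Nat.primeCounting ⌊y⌋₊ : ℝ) - y / Real.log y
      = ((Nat.primeCounting ⌊y⌋₊ : ℝ) * Real.log y / y - 1) * (y / Real.log y) := by
    field_simp
  rw [h2, abs_mul, abs_of_pos (show 0 < y / Real.log y by positivity)]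
  gcongr


/-- **Prime number theorem in arithmetic progressions**, `θ(x; q, a)` form. -/
theorem theta_residueClass {q : ℕ} [NeZero q] {a : ZMod q} (ha : IsUnit a) :
    Tendsto (fun t : ℝ => (∑ p ∈ (Finset.Icc 1 ⌊t⌋₊).filter
      (fun p : ℕ => p.Prime ∧ (p : ZMod q) = a), Real.log (p : ℝ)) / t) atTop
      (𝓝 ((q.totient : ℝ)⁻¹)) := by
  classical
  have h1 := pnt_residueClass ha
  have h2 : Tendsto (fun t : ℝ => (Chebyshev.psi t - Chebyshev.theta t) / t) atTop (𝓝 0) := by
    have h3 := psi_div_tendsto.sub theta_div_tendsto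
    rw [sub_self] at h3
    refine h3.congr fun t => ?_
    ring
  have h3 : Tendsto (fun t : ℝ => (∑ k ∈ Finset.Icc 1 ⌊t⌋₊, vonMangoldt.residueClass a k -
      ∑ p ∈ (Finset.Icc 1 ⌊t⌋₊).filter
      (fun p : ℕ => p.Prime ∧ (p : ZMod q) = a), Real.log (p : ℝ)) / t) atTop (𝓝 0) := by
    refine tendsto_of_tendsto_of_tendsto_of_le_of_le' tendsto_const_nhds h2 ?_ ?_
    · filter_upwards [eventually_gt_atTop 0] with t ht
      apply div_nonneg _ ht.le
      rw [sub_nonneg, Finset.sum_filter]
      apply Finset.sum_le_sum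
      intro k _
      split_ifs with hk
      · rw [vonMangoldt.residueClass, Set.indicator_of_mem (show k ∈ {n : ℕ | (n : ZMod q) = a} from hk.2),
          vonMangoldt_apply_prime hk.1]
      · exact vonMangoldt.residueClass_nonneg a k
    · filter_upwards [eventually_gt_atTop 0] with t ht
      apply div_le_div_of_nonneg_right _ ht.le
      rw [Chebyshev.psi_sub_theta_eq_sum_not_prime, Finset.sum_filter, Finset.sum_filter,
        ← Finset.sum_sub_distrib]
      have e0 : Finset.Icc 1 ⌊t⌋₊ = Finset.Ioc 0 ⌊t⌋₊ := by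
        ext k; simp only [Finset.mem_Icc, Finset.mem_Ioc]; omega
      rw [e0]
      apply Finset.sum_le_sum
      intro k _
      by_cases hk : k.Prime
      · rw [if_neg (not_not.mpr hk)]
        by_cases hk2 : (k : ZMod q) = a
        · rw [if_pos ⟨hk, hk2⟩, vonMangoldt.residueClass, Set.indicator_of_mem (show k ∈ {n : ℕ | (n : ZMod q) = a} from hk2),
            vonMangoldt_apply_prime hk, sub_self]
        · rw [if_neg (fun h => hk2 h.2), vonMangoldt.residueClass, Set.indicator_of_notMem (show k ∉ {n : ℕ | (n : ZMod q) = a} from hk2),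
            sub_self]
      · rw [if_pos hk, if_neg (fun h => hk h.1), sub_zero]
        exact vonMangoldt.residueClass_le a k
  have h4 := h1.sub h3
  rw [sub_zero] at h4
  refine h4.congr fun t => ?_
  ring

end dirichlet

end Crest.Agent.Lib.PNT
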